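import Vale.Agent.P022.H903.Key

/-!
# Multiplicativity of the nebentypus
-/

open scoped ModularForm MatrixGroups Manifold Topology
open UpperHalfPlane CongruenceSubgroup Matrix

noncomputable section

namespace Vale.Agent.P022.H903

open Vale.Agent.P022

theorem exists_gamma {L d : ℕ} (hd : Nat.Coprime d L) :
    ∃ γ ∈ Gamma0 L, (γ : SL(2, ℤ)) 1 1 = (d : ℤ) := by
  obtain ⟨x, y, h⟩ := Nat.isCoprime_iff_coprime.2 hd
  obtain ⟨γ, h1, h2, h3, h4⟩ := exists_sl x (-y) L d (by linarith)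
  refine ⟨γ, ?_, h4⟩
  rw [Gamma0_mem, h3]
  simp

theorem gamma1_of {L : ℕ} {γ : SL(2, ℤ)} (h0 : γ ∈ Gamma0 L) (h1 : ((γ 1 1 : ℤ) : ZMod L) = 1) :
    γ ∈ Gamma1 L := by
  rw [Gamma0_mem] at h0
  rw [Gamma1_mem]
  refine ⟨?_, h1, h0⟩
  have h2 := congrArg (fun z : ℤ => (z : ZMod L)) (sl_det γ)
  simp only [Int.cast_sub, Int.cast_mul, Int.cast_one] at h2
  rw [h0, h1] at h2
  simpa using h2

theorem slash_gamma1 {L : ℕ} {k : ℤ} (f : MF L k) {γ : SL(2, ℤ)} (hγ : γ ∈ Gamma1 L) :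
    (f : ℍ → ℂ) ∣[k] γ = f :=
  f.slash_action_eq' _ ⟨γ, hγ, rfl⟩

theorem X_mul {L : ℕ} (f : MF L 1) (hf0 : (f : ℍ → ℂ) ≠ 0) {X : ℕ → ℂ}
    (hX : ∀ γ ∈ Gamma0 L, ∀ d : ℕ, γ 1 1 = d → (f : ℍ → ℂ) ∣[(1 : ℤ)] γ = X d • (f : ℍ → ℂ))
    {a b : ℕ} (ha : Nat.Coprime a L) (hb : Nat.Coprime b L) : X (a * b) = X a * X b := by
  obtain ⟨α, hα, eα⟩ := exists_gamma ha
  obtain ⟨β, hβ, eβ⟩ := exists_gamma hb
  obtain ⟨δ, hδ, eδ⟩ := exists_gamma (Nat.Coprime.mul_left ha hb)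
  set ε : SL(2, ℤ) := α * β * δ⁻¹ with hε
  have h0 : ε ∈ Gamma0 L := mul_mem (mul_mem hα hβ) (inv_mem hδ)
  have hεδ : ε * δ = α * β := by rw [hε]; group
  have h1 : ((ε 1 1 : ℤ) : ZMod L) = 1 := by
    have h2 := congrArg (fun g : SL(2, ℤ) => ((g 1 1 : ℤ) : ZMod L)) hεδ
    simp only [sl_mul_11, eα, eβ, eδ, Int.cast_add, Int.cast_mul, Int.cast_natCast] at h2
    have hα' : ((α 1 0 : ℤ) : ZMod L) = 0 := by rwa [Gamma0_mem] at hα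
    have hε' : ((ε 1 0 : ℤ) : ZMod L) = 0 := by rwa [Gamma0_mem] at h0
    rw [hα', hε', zero_mul, zero_mul, zero_add, zero_add, Nat.cast_mul] at h2
    have hu : IsUnit ((a : ZMod L) * (b : ZMod L)) :=
      ((ZMod.isUnit_iff_coprime _ _).2 ha).mul ((ZMod.isUnit_iff_coprime _ _).2 hb)
    have h3 : ((ε 1 1 : ℤ) : ZMod L) * ((a : ZMod L) * (b : ZMod L)) =
        1 * ((a : ZMod L) * (b : ZMod L)) := by rw [h2, one_mul]
    exact hu.mul_right_cancel h3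
  have h4 : (f : ℍ → ℂ) ∣[(1 : ℤ)] (α * β) = (X a * X b) • (f : ℍ → ℂ) := by
    rw [SlashAction.slash_mul, hX α hα a eα, ModularForm.SL_smul_slash, hX β hβ b eβ, smul_smul]
  have h5 : (f : ℍ → ℂ) ∣[(1 : ℤ)] (α * β) = X (a * b) • (f : ℍ → ℂ) := by
    rw [← hεδ, SlashAction.slash_mul, slash_gamma1 f (gamma1_of h0 h1), hX δ hδ _ eδ]
  rw [h4] at h5
  obtain ⟨τ, hτ⟩ := Function.ne_iff.1 hf0
  have h6 := congrFun h5 τ
  simp only [Pi.smul_apply, smul_eq_mul] at h6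
  exact (mul_right_cancel₀ hτ h6).symm

theorem isNeb_of {N : ℕ} {J L : ℕ} (hL : L = 2 ^ J * N) (f : MF L 1)
    (hf0 : (f : ℍ → ℂ) ≠ 0) {X : ℕ → ℂ}
    (hX : ∀ γ ∈ Gamma0 L, ∀ d : ℕ, γ 1 1 = d → (f : ℍ → ℂ) ∣[(1 : ℤ)] γ = X d • (f : ℍ → ℂ))
    (ht : (∀ d : ℕ, Odd d → d ≡ 1 [MOD N] → X d = 1) ∨
      (∀ d : ℕ, Odd d → d ≡ 1 [MOD N] → X d = ((ZMod.χ₄ (d : ZMod 4) : ℤ) : ℂ))) :
    ∃ κ : ℤ → ℂ, IsNeb N X κ := by
  have hm : ∀ a b : ℕ, Odd a → Odd b → Nat.Coprime a N → Nat.Coprime b N →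
      X (a * b) = X a * X b := by
    intro a b ha hb ha' hb'
    refine X_mul f hf0 hX ?_ ?_
    · rw [hL]
      exact Nat.Coprime.mul_right (Nat.Coprime.pow_right _ (Nat.coprime_two_right.2 ha)) ha'
    · rw [hL]
      exact Nat.Coprime.mul_right (Nat.Coprime.pow_right _ (Nat.coprime_two_right.2 hb)) hb'
  rcases ht with ht | ht
  · exact ⟨fun _ => 1, hm, Or.inl fun _ _ => rfl, fun d hd h1 => ht d hd h1⟩
  · refine ⟨c4, hm, Or.inr fun _ _ => rfl, fun d hd h1 => ?_⟩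
    rw [ht d hd h1, c4]
    simp

end Vale.Agent.P022.H903
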