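import Vale.Agent.P022.H903.Conv

/-!
# The key approximation
-/

open scoped ModularForm MatrixGroups Manifold Topology
open UpperHalfPlane Filter Matrix CongruenceSubgroup EisensteinSeries Derivative

noncomputable section

namespace Vale.Agent.P022.H903

open Vale.Agent.P022

variable {v : AbsoluteValue ℂ ℝ} {O : Subring ℂ}

theorem hasQ_iff {f : ℍ → ℂ} {a : ℕ → ℂ} : HasQ f a ↔
    ∀ τ : ℍ, HasSum (fun n => a n * Function.Periodic.qParam ((1 : ℕ) : ℝ) τ ^ n) (f τ) := by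
  constructor
  · intro h τ
    refine hs_congr (h τ) fun n => ?_
    rw [qterm, Nat.cast_one, div_one]
  · intro h τ
    refine hs_congr (h τ) fun n => ?_
    rw [qterm, Nat.cast_one, div_one]

theorem hq_iter {f : ℍ → ℂ} {a : ℕ → ℂ} (hf : HasQ f a) (j : ℕ) :
    HasQ (normalizedDerivOfComplex^[j] f) (fun n => (n : ℂ) ^ j * a n) := by
  induction j with
  | zero => simpa using hf
  | succ j ih =>
    rw [Function.iterate_succ_apply', hasQ_iff]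
    intro τ
    have h1 := QI.hasSum_deriv one_pos (hasQ_iff.1 ih) τ
    have e1 : (((1 : ℕ) : ℂ) • normalizedDerivOfComplex (normalizedDerivOfComplex^[j] f)) τ =
        normalizedDerivOfComplex (normalizedDerivOfComplex^[j] f) τ := by simp
    rw [e1] at h1
    refine hs_congr h1 fun n => ?_
    rw [pow_succ]
    ring

theorem hq_smul {f : ℍ → ℂ} {a : ℕ → ℂ} (hf : HasQ f a) (c : ℂ) :
    HasQ (c • f) (fun n => c * a n) := fun τ => by
  have := (hf τ).mul_left c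
  refine hs_congr this fun n => ?_
  ring

theorem hq_sub {f g : ℍ → ℂ} {a b : ℕ → ℂ} (hf : HasQ f a) (hg : HasQ g b) :
    HasQ (f - g) (fun n => a n - b n) := fun τ => by
  have := (hf τ).sub (hg τ)
  refine hs_congr this fun n => ?_
  ring

theorem hq_sum {ι : Type*} {s : Finset ι} {f : ι → ℍ → ℂ} {a : ι → ℕ → ℂ}
    (hf : ∀ i ∈ s, HasQ (f i) (a i)) : HasQ (∑ i ∈ s, f i) (fun n => ∑ i ∈ s, a i n) := fun τ => by
  have := hasSum_sum (f := fun i n => a i n * Complex.exp (2 * Real.pi * Complex.I * n * τ))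
    (a := fun i => f i τ) (s := s) fun i hi => hf i hi τ
  rw [Finset.sum_apply]
  refine hs_congr this fun n => ?_
  rw [Finset.sum_mul]

theorem hq_unique {f : ℍ → ℂ} {a b : ℕ → ℂ} (hf : HasQ f a) (hg : HasQ f b) : a = b :=
  hasSum_unique one_pos (hasQ_iff.1 hf) (hasQ_iff.1 hg)

theorem T1.small (hv : TwoAdic v) {m : ℕ} {f : ℍ → ℂ} {a : ℕ → ℂ} (hf : T1 (Ov v hv) m f)
    (ha : HasQ f a) (n : ℕ) : v (a n) ≤ (1 / 2) ^ m := by
  obtain ⟨Z, ⟨z, hz, hzs⟩, e⟩ := hf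
  have h1 : HasQ Z z := hasQ_iff.2 hzs
  have h2 := hq_smul h1 ((2 : ℂ) ^ m)
  rw [← e] at h2
  rw [hq_unique ha h2, v.map_mul, v_half_pow hv]
  have := hz n
  rw [mem_Ov] at this
  exact mul_le_of_le_one_right (by positivity) this

theorem exists_hasQ {k : ℤ} {N : ℕ} {e : DirichletCharacter ℂ N} {F : ℍ → ℂ}
    (h1 : ∀ γ ∈ Gamma0 N, F ∣[k] γ = chr e γ • F) (h2 : Cusps O k F) :
    ∃ (c : ℕ → ℂ) (s : ℕ), HasQ F c ∧ ∀ n, (2 : ℂ) ^ s * c n ∈ O := by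
  obtain ⟨h, hh, s, hQ⟩ := h2.toBd
  have hT : Tinv F := tinv_of_slash (k := k) (by rw [h1 _ (Tm_mem _), chr_Tm, one_smul])
  obtain ⟨a, ha, hs⟩ := hQ.period_one hh (hT.smul _)
  have h3 : HasQ ((2 : ℂ) ^ s • F) a := hasQ_iff.2 hs
  have h4 := hq_smul h3 ((2 : ℂ) ^ s)⁻¹
  rw [smul_smul, inv_mul_cancel₀ (pow_ne_zero _ two_ne_zero), one_smul] at h4
  refine ⟨_, s, h4, fun n => ?_⟩
  rw [← mul_assoc, mul_inv_cancel₀ (pow_ne_zero _ two_ne_zero), one_mul]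
  exact ha n

theorem v_char {N : ℕ} [NeZero N] (e : DirichletCharacter ℂ N) {a : ZMod N}
    (ha : IsUnit a) : v (e a) = 1 := by
  obtain ⟨u, hu⟩ := ha
  refine v_root (n := Fintype.card (ZMod N)ˣ) Fintype.card_pos ?_
  rw [← hu, ← map_pow, ← Units.val_pow_eq_pow_val, pow_card_eq_one, Units.val_one, map_one]

/-- Forms of level `N` with tame nebentypus. -/
theorem key_core (hv : TwoAdic v) (hE : HasE (Ov v hv)) {N : ℕ} (hN : Odd N) {J : ℕ}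
    {X : ℕ → ℂ} {κ : ℤ → ℂ} (h : IsNeb N X κ) {f : ℍ → ℂ} {a : ℕ → ℂ} (ha : HasQ f a)
    (hf : ∀ γ ∈ Gamma0 (N * 2 ^ J), ∀ d : ℕ, γ 1 1 = d → f ∣[(1 : ℤ)] γ = X d • f)
    (hb : VBdd v 1 f) (j m : ℕ) :
    ∃ (K : ℕ) (F : ∀ i : ℕ, MF N ((i + 1 : ℕ) : ℤ)) (c : ℕ → ℕ → ℂ),
      (∀ i, ∀ γ ∈ Gamma0 N, (F i : ℍ → ℂ) ∣[((i + 1 : ℕ) : ℤ)] γ =
        chr (IsNeb.tame X κ h hN) γ • (F i : ℍ → ℂ)) ∧
      (∀ i, HasQ (F i) (c i)) ∧
      ∀ u : ℕ, Odd u → Nat.Coprime u N → ∀ n : ℕ,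
        v (∑ i ∈ Finset.range K, (u : ℂ) ^ i * (IsNeb.tame X κ h hN (u : ZMod N) * c i n) -
          X u * (u : ℂ) ^ (2 * j) * ((n : ℂ) ^ j * a n)) ≤ (1 / 2) ^ m := by
  have : NeZero N := ⟨hN.pos.ne'⟩
  have hf' : ∀ γ ∈ Gamma0 (N * 2 ^ (J + 2)), ∀ d : ℕ, γ 1 1 = d → f ∣[(1 : ℤ)] γ = X d • f :=
    fun γ hγ => hf γ (gamma0_le (mul_dvd_mul_left _ (pow_dvd_pow 2 (Nat.le_add_right _ _))) hγ)
  obtain ⟨K, F, h1, h2, h3⟩ := approx_main (good_Ov hv) hE hN (IsNeb.tame X κ h hN) (J + 2) κ h.kap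
    (fun γ hγ => slash_all hN (by omega) h hf' hγ) (VBdd.toCusps hv hb) j m
  have hF : ∀ i, ∃ g : MF N ((i + 1 : ℕ) : ℤ), (g : ℍ → ℂ) = F i := by
    intro i
    refine mk_MF (fun γ hγ => ?_) (h2 i)
    have hγ0 : γ ∈ Gamma0 N := by
      rw [Gamma1_mem] at hγ
      rw [Gamma0_mem]
      exact hγ.2.2
    rw [h1 i γ hγ0]
    rw [Gamma1_mem] at hγ
    rw [chr, hγ.2.1, map_one, one_smul]
  choose G hG using hF
  choose c s hc hs using fun i => exists_hasQ (h1 i) (h2 i)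
  refine ⟨K, G, c, fun i γ hγ => ?_, fun i => ?_, fun u hu huN n => ?_⟩
  · rw [hG i]
    exact h1 i γ hγ
  · rw [hG i]
    exact hc i
  · have hu' : Odd (u : ℤ) := by exact_mod_cast hu
    have h4 := h3 u hu'
    have h5 : HasQ (∑ i ∈ Finset.range K, ((u : ℤ) : ℂ) ^ i • F i -
        (κ u * ((u : ℤ) : ℂ) ^ (2 * j)) • normalizedDerivOfComplex^[j] f)
        (fun n => ∑ i ∈ Finset.range K, ((u : ℤ) : ℂ) ^ i * c i n -
          (κ u * ((u : ℤ) : ℂ) ^ (2 * j)) * ((n : ℂ) ^ j * a n)) :=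
      hq_sub (hq_sum fun i _ => hq_smul (hc i) _) (hq_smul (hq_iter ha j) _)
    have h6 := h4.small hv h5 n
    have hunit : IsUnit (u : ZMod N) := (ZMod.isUnit_iff_coprime _ _).2 huN
    have h7 : ∑ i ∈ Finset.range K, (u : ℂ) ^ i * (IsNeb.tame X κ h hN (u : ZMod N) * c i n) -
          X u * (u : ℂ) ^ (2 * j) * ((n : ℂ) ^ j * a n) =
        IsNeb.tame X κ h hN (u : ZMod N) * (∑ i ∈ Finset.range K, ((u : ℤ) : ℂ) ^ i * c i n -
          (κ u * ((u : ℤ) : ℂ) ^ (2 * j)) * ((n : ℂ) ^ j * a n)) := by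
      rw [← h.tame_apply hN hu huN, mul_sub, Finset.mul_sum]
      congr 1
      · refine Finset.sum_congr rfl fun i _ => ?_
        push_cast
        ring
      · push_cast
        ring
    rw [h7, v.map_mul, v_char _ hunit, one_mul]
    exact h6

end Vale.Agent.P022.H903
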