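import Vale.Agent.P022.H23.ThetaMF
import Vale.Agent.P022.H903.Key

/-!
# The theta series of `x^2 + y^2`
-/

open scoped ModularForm MatrixGroups Manifold Topology NumberTheorySymbols
open UpperHalfPlane CongruenceSubgroup

noncomputable section

namespace Vale.Agent.P022.H903

open Vale.Agent.P022 Vale.Agent.P022.H23

variable {v : AbsoluteValue ℂ ℝ}

/-- the form `x^2 + y^2` -/
def Q1 : BQ := ⟨1, 0, 1⟩

theorem Q1_pos : Q1.Pos := ⟨by norm_num [Q1], by norm_num [Q1, BQ.det]⟩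

theorem Q1_det : Q1.det = 4 := by norm_num [Q1, BQ.det]

theorem Q1_q (x : Fin 2 → ℤ) : Q1.q x = x 0 ^ 2 + x 1 ^ 2 := by
  simp [Q1, BQ.q]

/-- representations of `n` -/
def Rs (n : ℕ) : Set (Fin 2 → ℤ) := {x | Q1.q x = n}

theorem mem_Rs {n : ℕ} {x : Fin 2 → ℤ} : x ∈ Rs n ↔ x 0 ^ 2 + x 1 ^ 2 = n := by
  show Q1.q x = n ↔ _
  rw [Q1_q]

theorem Rs_finite (n : ℕ) : (Rs n).Finite := by
  refine (Set.finite_Icc (fun _ : Fin 2 => -(n : ℤ)) (fun _ => (n : ℤ))).subset fun x hx => ?_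
  rw [mem_Rs] at hx
  have h0 : -(n : ℤ) ≤ x 0 ∧ x 0 ≤ n := by
    constructor <;> nlinarith [sq_nonneg (x 0), sq_nonneg (x 1), Int.le_self_sq (x 0),
      Int.le_self_sq (-(x 0))]
  have h1 : -(n : ℤ) ≤ x 1 ∧ x 1 ≤ n := by
    constructor <;> nlinarith [sq_nonneg (x 0), sq_nonneg (x 1), Int.le_self_sq (x 1),
      Int.le_self_sq (-(x 1))]
  constructor
  · intro i
    fin_cases i
    · exact h0.1
    · exact h1.1
  · intro i
    fin_cases i
    · exact h0.2
    · exact h1.2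

/-- rotation -/
def rot : (Fin 2 → ℤ) ≃ (Fin 2 → ℤ) where
  toFun x := ![-x 1, x 0]
  invFun x := ![x 1, -x 0]
  left_inv x := by ext i; fin_cases i <;> simp
  right_inv x := by ext i; fin_cases i <;> simp

theorem rot_mem {n : ℕ} (x : Fin 2 → ℤ) : x ∈ (Rs_finite n).toFinset ↔
    rot x ∈ (Rs_finite n).toFinset := by
  rw [Set.Finite.mem_toFinset, Set.Finite.mem_toFinset, mem_Rs, mem_Rs]
  simp only [rot, Equiv.coe_fn_mk, Matrix.cons_val_zero, Matrix.cons_val_one]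
  rw [neg_sq, add_comm]

theorem quad (a b : ℤ) (h : ¬ (a = 0 ∧ b = 0)) :
    (if 0 < a ∧ 0 ≤ b then 1 else 0) + (if 0 < -b ∧ 0 ≤ a then 1 else 0) +
      (if 0 < -a ∧ 0 ≤ -b then 1 else 0) + (if 0 < - -b ∧ 0 ≤ -a then 1 else 0) = 1 := by
  split_ifs <;> omega

theorem four_dvd {n : ℕ} (hn : n ≠ 0) : 4 ∣ (Rs_finite n).toFinset.card := by
  set g : (Fin 2 → ℤ) → ℕ := fun x => if 0 < x 0 ∧ 0 ≤ x 1 then 1 else 0 with hg
  set F := (Rs_finite n).toFinset with hF
  have h1 : ∀ G : (Fin 2 → ℤ) → ℕ, ∑ x ∈ F, G (rot x) = ∑ x ∈ F, G x := fun G =>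
    Finset.sum_equiv rot (fun x => rot_mem x) fun _ _ => rfl
  have h2 : ∀ x ∈ F, g x + g (rot x) + g (rot (rot x)) + g (rot (rot (rot x))) = 1 := by
    intro x hx
    rw [hF, Set.Finite.mem_toFinset, mem_Rs] at hx
    have hx0 : ¬ (x 0 = 0 ∧ x 1 = 0) := by
      rintro ⟨e0, e1⟩
      rw [e0, e1] at hx
      apply hn
      have : (n : ℤ) = 0 := by rw [← hx]; norm_num
      exact_mod_cast this
    exact quad (x 0) (x 1) hx0
  have h3 : F.card = 4 * ∑ x ∈ F, g x := by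
    have h4 : ∑ x ∈ F, (g x + g (rot x) + g (rot (rot x)) + g (rot (rot (rot x)))) =
        ∑ x ∈ F, 1 := Finset.sum_congr rfl h2
    rw [Finset.sum_add_distrib, Finset.sum_add_distrib, Finset.sum_add_distrib,
      h1 (fun x => g (rot (rot x))), h1 (fun x => g (rot x)), h1 g] at h4
    rw [Finset.card_eq_sum_ones, ← h4]
    ring
  exact ⟨_, h3⟩

theorem Rs_zero : (Rs_finite 0).toFinset = {0} := by
  ext x
  rw [Set.Finite.mem_toFinset, mem_Rs, Finset.mem_singleton]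
  constructor
  · intro h
    have h0 : x 0 = 0 := by
      have : x 0 ^ 2 ≤ 0 := by push_cast at h; nlinarith [sq_nonneg (x 1)]
      exact pow_eq_zero_iff (two_ne_zero) |>.1 (le_antisymm this (sq_nonneg _))
    have h1 : x 1 = 0 := by
      have : x 1 ^ 2 ≤ 0 := by push_cast at h; nlinarith [sq_nonneg (x 0)]
      exact pow_eq_zero_iff (two_ne_zero) |>.1 (le_antisymm this (sq_nonneg _))
    ext i
    fin_cases i
    · exact h0
    · exact h1
  · rintro rfl
    simp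

theorem jac_four {d : ℕ} (hd : Odd d) : ((J(-Q1.det | d) : ℤ) : ℂ) = c4 d := by
  rw [Q1_det, show (-4 : ℤ) = (-1) * 2 ^ 2 by norm_num, jacobiSym.mul_left,
    jacobiSym.at_neg_one hd, c4]
  have h1 : J(2 ^ 2 | d) = 1 := by
    refine jacobiSym.sq_one' ?_
    rw [← Int.isCoprime_iff_gcd_eq_one]
    obtain ⟨k, rfl⟩ := hd
    exact ⟨-k, 1, by push_cast; ring⟩
  rw [h1, mul_one]
  simp

theorem isNeb_one : IsNeb 1 (fun d => ((J(-Q1.det | d) : ℤ) : ℂ)) c4 where
  mul a b ha hb _ _ := by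
    rw [jacobiSym.mul_right' _ ha.pos.ne' hb.pos.ne', Int.cast_mul]
  kap := Or.inr fun _ _ => rfl
  one d hd _ := jac_four hd

theorem hasE (hv : TwoAdic v) : HasE (Ov v hv) := by
  obtain ⟨g, -, h2, h3, h4⟩ := theta_MF (f := fun _ => 1) Q1_pos one_pos
    (fun x n => rfl)
  have hl : 4 * Q1.det.natAbs * 1 ^ 2 = 1 * 2 ^ 4 := by rw [Q1_det]; norm_num
  refine ⟨4, g, ?_, VBdd.toCusps hv (h4 v hv.nonarch), ?_⟩
  · intro γ hγ
    have h5 := slash_all (N := 1) odd_one (J := 4) (by norm_num) isNeb_one (f := (g : ℍ → ℂ))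
      (fun γ hγ d hd => by
        have := h3 γ (by rw [hl]; exact hγ) d hd 1 (fun _ => by simp)
        rwa [mul_one] at this) (γ := γ) (by rwa [one_mul])
    rw [h5]
    congr 1
    have : ((γ 1 1 : ℤ) : ZMod 1) = 1 := Subsingleton.elim _ _
    rw [chr, this, map_one, one_mul]
  · choose! b hb using fun (n : ℕ) (hn : n ≠ 0) => four_dvd hn
    have hco : ∀ n : ℕ, ∑ᶠ x ∈ {x : Fin 2 → ℤ | Q1.q x = n}, (1 : ℂ) =
        ((Rs_finite n).toFinset.card : ℂ) := by
      intro n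
      have h6 := finsum_mem_eq_finite_toFinset_sum (fun _ : Fin 2 → ℤ => (1 : ℂ)) (Rs_finite n)
      rw [Finset.sum_const, nsmul_eq_mul, mul_one] at h6
      exact h6
    refine ⟨1, one_pos, (1 / 4 : ℂ) • ((g : ℍ → ℂ) - 1), ?_, ?_⟩
    · refine ⟨fun n => if n = 0 then 0 else b n, fun n => ?_, fun τ => ?_⟩
      · show (if n = 0 then (0 : ℂ) else b n) ∈ _
        split_ifs
        · exact zero_mem _
        · exact natCast_mem _ _
      · have h5 := ((hasQ_iff.1 h2 τ).sub (hasSum_ite_eq (0 : ℕ) (1 : ℂ))).mul_left (1 / 4 : ℂ)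
        have e : ((1 / 4 : ℂ) • ((g : ℍ → ℂ) - 1)) τ = (1 / 4 : ℂ) * (g τ - 1) := by simp
        rw [e]
        refine hs_congr h5 fun n => ?_
        rw [hco]
        by_cases hn : n = 0
        · subst hn
          rw [Rs_zero]
          simp
        · rw [if_neg hn, hb n hn]
          show (if n = 0 then (0 : ℂ) else b n) * _ = _
          rw [if_neg hn]
          push_cast
          ring
    · rw [smul_smul]
      norm_num

end Vale.Agent.P022.H903
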