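import Vale.Agent.P022.Sys
import Vale.Agent.P022.H903.Neb
import Vale.Agent.P022.H903.Sq

/-!
# The systems of eigenvalues attached to forms of weight one
-/

open scoped ModularForm MatrixGroups Manifold Topology
open UpperHalfPlane CongruenceSubgroup Matrix

noncomputable section

namespace Vale.Agent.P022

/-- Key. -/
def Key_statement : Prop :=
  ∀ (v : AbsoluteValue ℂ ℝ), TwoAdic v → ∀ (N : ℕ) [NeZero N], Odd N →
    ∀ (J L : ℕ), L = 2 ^ J * N → ∀ (f : MF L 1), VBdd v 1 f → ∀ X : ℕ → ℂ,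
    (∀ γ ∈ Gamma0 L, ∀ d : ℕ, γ 1 1 = d → (f : ℍ → ℂ) ∣[(1 : ℤ)] γ = X d • (f : ℍ → ℂ)) →
    ((∀ d : ℕ, Odd d → d ≡ 1 [MOD N] → X d = 1) ∨
      (∀ d : ℕ, Odd d → d ≡ 1 [MOD N] → X d = ((ZMod.χ₄ (d : ZMod 4) : ℤ) : ℂ))) →
    ∀ a : ℕ → ℂ, HasQ f a → a 1 = 1 →
    (∀ l : ℕ, l.Prime → l ≠ 2 → ∀ n : ℕ, 0 < n →
      a (n * l) + X l * (if l ∣ n then a (n / l) else 0) = a l * a n) →
    ∀ j : ℕ, SysOK v N (fun l => (l : ℂ) ^ j * a l) (fun l => (l : ℂ) ^ (2 * j) * X l)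

/-- The criterion. -/
def Q3s_statement : Prop :=
  ∀ (v : AbsoluteValue ℂ ℝ), TwoAdic v → ∀ (N : ℕ) [NeZero N] (m k : ℕ)
    (G : ∀ i : Fin k, MF N (((i : ℕ) : ℤ) + 1)) (c t d D : ℕ → ℂ),
    D 1 = 1 → c 1 = 1 →
    (∀ l : ℕ, l.Prime → ¬ l ∣ 2 * N →
      (∀ u : ℕ, u.Coprime (2 * N) → D (u * l) = D u * d l) ∧
      ∀ n : ℕ, 0 < n → c (n * l) + d l * (if l ∣ n then c (n / l) else 0) = t l * c n) →
    (∀ u : ℕ, u.Coprime (2 * N) → ∃ b : ℕ → ℂ,
      HasQ (∑ i : Fin k, (u : ℂ) ^ (i : ℕ) • (diamond N (((i : ℕ) : ℤ) + 1) u (G i) : ℍ → ℂ)) b ∧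
      ∀ n : ℕ, 0 < n → v (b n - D u * c n) ≤ (1 / 2) ^ m) →
    ∀ P : FreeAlgebra ℤ (Gen N), opsHom N k P = 0 → v (evHom N t d P) ≤ (1 / 2) ^ m

namespace H903

theorem hasQ_zero : HasQ 0 0 := fun τ => by
  simp [hasSum_zero]

theorem key (hQ3 : Q3s_statement) : Key_statement := by
  intro v hv N _ hN J L hL f hb X hX ht a ha ha1 hrec j m
  have hf0 : (f : ℍ → ℂ) ≠ 0 := by
    intro h0
    rw [h0] at ha
    have := hq_unique ha hasQ_zero
    rw [this] at ha1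
    simp at ha1
  obtain ⟨κ, hN'⟩ := isNeb_of hL f hf0 hX ht
  have hLN : L = N * 2 ^ J := by rw [hL, mul_comm]
  obtain ⟨K, F, c, h1, h2, h3⟩ := key_core hv (hasE hv) hN hN' (J := J) ha
    (fun γ hγ d hd => hX γ (by rw [hLN]; exact hγ) d hd) hb j m
  have hG : ∀ i : ℕ, ∃ g : MF N ((i : ℤ) + 1), (g : ℍ → ℂ) = F i ∧
      ∀ γ ∈ Gamma0 N, (F i : ℍ → ℂ) ∣[(i : ℤ) + 1] γ =
        chr (IsNeb.tame X κ hN' hN) γ • (F i : ℍ → ℂ) := by
    intro i
    have e : ((i + 1 : ℕ) : ℤ) = (i : ℤ) + 1 := by push_cast; ring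
    have h1' := h1 i
    rw [← e]
    exact ⟨F i, rfl, h1'⟩
  choose G hG1 hG2 using hG
  refine ⟨K, fun P hP => hQ3 v hv N m K (fun i => G i) (fun n => (n : ℂ) ^ j * a n)
    (fun l => (l : ℂ) ^ j * a l) (fun l => (l : ℂ) ^ (2 * j) * X l)
    (fun u => X u * (u : ℂ) ^ (2 * j)) ?_ ?_ ?_ ?_ P hP⟩
  · have h5 := hN'.one 1 odd_one (Nat.ModEq.refl 1)
    have hk1 : κ ((1 : ℕ) : ℤ) = 1 := by
      rcases hN'.kap with hk | hk
      · exact hk _ (by simp)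
      · rw [hk _ (by simp)]; exact c4_one
    simp only [Nat.cast_one, one_pow, mul_one]
    rw [h5, hk1]
  · simp [ha1]
  · intro l hl hlN
    have hl2 : l ≠ 2 := fun h => hlN (h ▸ dvd_mul_right 2 N)
    have hlo : Odd l := hl.odd_of_ne_two hl2
    have hlc : Nat.Coprime l N :=
      (Nat.Prime.coprime_iff_not_dvd hl).2 fun h => hlN (dvd_mul_of_dvd_right h 2)
    refine ⟨fun u hu => ?_, fun n hn => ?_⟩
    · have huo : Odd u := Nat.coprime_two_right.1 (Nat.Coprime.coprime_mul_right_right hu)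
      have huc : Nat.Coprime u N := Nat.Coprime.coprime_mul_left_right hu
      rw [hN'.mul u l huo hlo huc hlc]
      push_cast
      ring
    · have h5 := hrec l hl hl2 n hn
      by_cases hd : l ∣ n
      · obtain ⟨n', rfl⟩ := hd
        rw [if_pos (dvd_mul_right l n'), Nat.mul_div_cancel_left n' hl.pos] at h5 ⊢
        push_cast
        linear_combination ((l : ℂ) * n' * l) ^ j * h5
      · rw [if_neg hd] at h5 ⊢
        push_cast
        linear_combination ((n : ℂ) * l) ^ j * h5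
  · intro u hu
    have huo : Odd u := Nat.coprime_two_right.1 (Nat.Coprime.coprime_mul_right_right hu)
    have huc : Nat.Coprime u N := Nat.Coprime.coprime_mul_left_right hu
    refine ⟨fun n => ∑ i : Fin K, (u : ℂ) ^ (i : ℕ) *
      (IsNeb.tame X κ hN' hN (u : ZMod N) * c i n), hq_sum fun i _ => hq_smul ?_ _, ?_⟩
    · have e1 : (diamond N (((i : ℕ) : ℤ) + 1) u (G i) : ℍ → ℂ) =
          IsNeb.tame X κ hN' hN (u : ZMod N) • (F i : ℍ → ℂ) := by
        rw [diamond_coe, hG1, hG2 i (diaMat N u), chr, diaMat_11 huc]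
        · simp
        · rw [Gamma0_mem, ZMod.intCast_zmod_eq_zero_iff_dvd]
          exact diaMat_dvd N u
      rw [e1]
      exact hq_smul (h2 i) _
    · intro n hn
      have h5 := h3 u huo huc n
      rw [← Fin.sum_univ_eq_sum_range (fun i => (u : ℂ) ^ i *
        (IsNeb.tame X κ hN' hN (u : ZMod N) * c i n))] at h5
      exact h5

end H903

end Vale.Agent.P022
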