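import Vale.Agent.P022.H903.Tame
import Mathlib.NumberTheory.LegendreSymbol.ZModChar

/-!
# The approximation theorem
-/

open scoped ModularForm MatrixGroups Manifold Topology
open UpperHalfPlane Filter Matrix CongruenceSubgroup EisensteinSeries Derivative

noncomputable section

namespace Vale.Agent.P022.H903

variable {O : Subring ℂ} {h : ℕ}

/-- the odd quadratic character modulo 4, on integers -/
def c4 (d : ℤ) : ℂ := ((ZMod.χ₄ (d : ZMod 4) : ℤ) : ℂ)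

theorem odd_mod_four {d : ℤ} (hd : Odd d) : d % 4 = 1 ∨ d % 4 = 3 := by
  rw [Int.odd_iff] at hd
  omega

theorem c4_sq {d : ℤ} (hd : Odd d) : c4 d * c4 d = 1 := by
  rw [c4]
  rcases odd_mod_four hd with h | h
  · rw [ZMod.χ₄_int_one_mod_four h]; norm_num
  · rw [ZMod.χ₄_int_three_mod_four h]; norm_num

theorem c4_mod {d : ℤ} (hd : Odd d) : ∃ z : ℤ, c4 d * d = 1 + 4 * z := by
  rw [c4]
  rcases odd_mod_four hd with h | h
  · rw [ZMod.χ₄_int_one_mod_four h]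
    refine ⟨d / 4, ?_⟩
    have : d = 1 + 4 * (d / 4) := by omega
    have h2 : (d : ℂ) = 1 + 4 * ((d / 4 : ℤ) : ℂ) := by exact_mod_cast congrArg (Int.cast : ℤ → ℂ) this
    rw [← h2]
    simp
  · rw [ZMod.χ₄_int_three_mod_four h]
    refine ⟨-(d / 4) - 1, ?_⟩
    have : d = 3 + 4 * (d / 4) := by omega
    have h2 : (d : ℂ) = 3 + 4 * ((d / 4 : ℤ) : ℂ) := by exact_mod_cast congrArg (Int.cast : ℤ → ℂ) this
    push_cast
    rw [h2]
    ring

theorem c4_mem (O : Subring ℂ) (d : ℤ) : c4 d ∈ O := intCast_mem O _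

/-- existence of a form of weight one of level a power of 2 and congruent to 1 modulo 4 -/
def HasE (O : Subring ℂ) : Prop :=
  ∃ (J : ℕ) (E : ℍ → ℂ), (∀ γ ∈ Gamma0 (2 ^ J), E ∣[(1 : ℤ)] γ = c4 (γ 1 1) • E) ∧
    Cusps O 1 E ∧ Tn O 2 (E - 1)

theorem gamma0_le {M N : ℕ} (hMN : M ∣ N) {γ : SL(2, ℤ)} (hγ : γ ∈ Gamma0 N) : γ ∈ Gamma0 M := by
  rw [Gamma0_mem, ZMod.intCast_zmod_eq_zero_iff_dvd] at hγ ⊢
  exact dvd_trans (by exact_mod_cast hMN) hγ

theorem gamma0_odd {N : ℕ} (hN : 2 ∣ N) {γ : SL(2, ℤ)} (hγ : γ ∈ Gamma0 N) : Odd (γ 1 1) := by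
  have h1 := gamma0_le hN hγ
  rw [Gamma0_mem, ZMod.intCast_zmod_eq_zero_iff_dvd] at h1
  obtain ⟨c, hc⟩ := h1
  have h2 := sl_det γ
  rw [hc] at h2
  by_contra h3
  rw [Int.not_odd_iff_even] at h3
  obtain ⟨d, hd⟩ := h3
  rw [hd] at h2
  have : (2 : ℤ) ∣ 1 := ⟨γ 0 0 * d - γ 0 1 * c, by push_cast at h2; linarith⟩
  omega

theorem approx_aux (hO : Good O) (hE : HasE O) {N : ℕ} (hN : Odd N) (e : DirichletCharacter ℂ N)
    (J : ℕ) {H : ℍ → ℂ} {k : ℕ}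
    (hf : ∀ γ ∈ Gamma0 (N * 2 ^ J), H ∣[((k + 1 : ℕ) : ℤ)] γ = (chr e γ * c4 (γ 1 1)) • H)
    (hc : Cusps O ((k + 1 : ℕ) : ℤ) H) (m : ℕ) :
    Approx O e m (fun u => (c4 u * (u : ℂ) ^ k) • H) := by
  obtain ⟨J0, E, hE1, hE2, hE3⟩ := hE
  obtain ⟨s, hs⟩ := hc.toBd.mul_tn
  set Q : Polynomial ℂ := Qp (m + s) with hQ
  have key : ∀ u : ℤ, Odd u → Tn O m (∑ i ∈ Finset.range (Q.natDegree + 1),
      (u : ℂ) ^ (k + (2 * i + 1)) • (Q.coeff i • (H * E ^ (2 * i + 1))) -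
        (c4 u * (u : ℂ) ^ k) • H) := by
    intro u hu
    have hx : Tn O 2 ((c4 u * u) • E - 1) := by
      obtain ⟨z, hz⟩ := c4_mod hu
      rw [hz]
      obtain ⟨h, hh, Z, hZ, eZ⟩ := hE3
      refine ⟨h, hh, (1 + 4 * (z : ℂ)) • Z + (z : ℂ) • 1, ?_, ?_⟩
      · have h4 : (1 + 4 * (z : ℂ)) ∈ O := by
          exact add_mem (one_mem O) (mul_mem (by exact_mod_cast natCast_mem O 4) (intCast_mem O z))
        exact (hZ.smul h4).add (QI.one.smul (intCast_mem O z))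
      · have : E = 1 + (2 : ℂ) ^ 2 • Z := by rw [← eZ]; ring
        rw [this]
        ext τ
        simp only [Pi.smul_apply, Pi.sub_apply, smul_eq_mul, Pi.add_apply, Pi.one_apply]
        ring
    have h1 := Qp_close hx (m + s)
    have h2 := hs m _ (h1.mono (by omega))
    have h3 := h2.smul' (c := c4 u * (u : ℂ) ^ k) (mul_mem (c4_mem O u)
      (pow_mem (intCast_mem O u) k))
    have e1 : ((c4 u * u) • E) ^ 2 = ((u : ℂ) • E) ^ 2 := by
      rw [smul_pow, smul_pow, mul_pow, pow_two (c4 u), c4_sq hu, one_mul]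
    rw [e1, ← hQ, Polynomial.aeval_eq_sum_range] at h3
    convert h3 using 1
    have e2 : (c4 u * (u : ℂ) ^ k) • (H * ((c4 u * (u : ℂ)) • E *
        ∑ i ∈ Finset.range (Q.natDegree + 1), Q.coeff i • (((u : ℂ) • E) ^ 2) ^ i - 1)) =
        ((c4 u * c4 u) * ((u : ℂ) ^ k * u)) • (H * (E *
        ∑ i ∈ Finset.range (Q.natDegree + 1), Q.coeff i • (((u : ℂ) • E) ^ 2) ^ i)) -
        (c4 u * (u : ℂ) ^ k) • H := by
      ext τ
      simp only [Pi.smul_apply, Pi.sub_apply, smul_eq_mul, Pi.mul_apply, Pi.one_apply]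
      ring
    rw [e2, c4_sq hu, one_mul, Finset.mul_sum, Finset.mul_sum, Finset.smul_sum]
    congr 1
    refine Finset.sum_congr rfl fun i _ => ?_
    ext τ
    simp only [Pi.smul_apply, smul_eq_mul, Pi.mul_apply, Pi.pow_apply]
    ring
  refine Approx.close (Approx.sum fun i _ => ?_) key
  have hk : ((k + (2 * i + 1) + 1 : ℕ) : ℤ) = ((k + 1 : ℕ) : ℤ) + ((2 * i + 1 : ℕ) : ℤ) * 1 := by
    push_cast
    ring
  refine approx_form hO hN e (J + J0 + 1) (k + (2 * i + 1)) ?_ ?_ m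
  · intro γ hγ
    have g1 : γ ∈ Gamma0 (N * 2 ^ J) := gamma0_le (mul_dvd_mul_left _ (pow_dvd_pow 2 (by omega))) hγ
    have g2 : γ ∈ Gamma0 (2 ^ J0) :=
      gamma0_le (dvd_mul_of_dvd_right (pow_dvd_pow 2 (by omega)) _) hγ
    have g3 : Odd (γ 1 1) := gamma0_odd (dvd_mul_of_dvd_right (dvd_pow_self 2 (by omega)) _) hγ
    rw [ModularForm.SL_smul_slash, hk, ModularForm.mul_slash_SL2, pow_slash, hf γ g1, hE1 γ g2,
      smul_pow, smul_mul_smul_comm, smul_comm]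
    congr 1
    rw [pow_succ, pow_mul, pow_two, c4_sq g3, one_pow, one_mul, mul_assoc, c4_sq g3, mul_one]
  · rw [hk]
    exact (hc.mul (hE2.pow _)).smul hO _

/-- The approximation theorem. `κ` is trivial or the character modulo 4 on odd integers. -/
theorem approx_main (hO : Good O) (hE : HasE O) {N : ℕ} (hN : Odd N) (e : DirichletCharacter ℂ N)
    (J : ℕ) {f : ℍ → ℂ} (κ : ℤ → ℂ)
    (hκ : (∀ d : ℤ, Odd d → κ d = 1) ∨ (∀ d : ℤ, Odd d → κ d = c4 d))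
    (hf : ∀ γ ∈ Gamma0 (N * 2 ^ J), f ∣[(1 : ℤ)] γ = (chr e γ * κ (γ 1 1)) • f)
    (hc : Cusps O 1 f) (j m : ℕ) :
    ∃ (K : ℕ) (F : ℕ → ℍ → ℂ),
      (∀ i, ∀ γ ∈ Gamma0 N, F i ∣[((i + 1 : ℕ) : ℤ)] γ = chr e γ • F i) ∧
      (∀ i, Cusps O ((i + 1 : ℕ) : ℤ) (F i)) ∧
      ∀ u : ℤ, Odd u → T1 O m (∑ i ∈ Finset.range K, (u : ℂ) ^ i • F i -
        (κ u * (u : ℂ) ^ (2 * j)) • normalizedDerivOfComplex^[j] f) := by
  have hf' : ∀ γ ∈ Gamma0 (N * 2 ^ (J + 1)), f ∣[(1 : ℤ)] γ = (chr e γ * κ (γ 1 1)) • f :=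
    fun γ hγ => hf γ (gamma0_le (mul_dvd_mul_left _ (pow_dvd_pow 2 (Nat.le_succ _))) hγ)
  have hκ1 : κ 1 = 1 := by
    rcases hκ with hκ | hκ
    · exact hκ 1 odd_one
    · rw [hκ 1 odd_one, c4, ZMod.χ₄_int_one_mod_four (by norm_num)]; norm_num
  obtain ⟨J', H, hJ', h1, h2, h3⟩ := theta_iter hO (χ := fun γ => chr e γ * κ (γ 1 1))
    (by show chr e Tm * κ (Tm 1 1) = 1
        rw [chr_Tm, one_mul]
        have : Tm 1 1 = 1 := by simp [Tm, ModularGroup.T]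
        rw [this, hκ1]) hf' hc j m
  have hk : (1 : ℤ) + ((2 * j : ℕ) : ℤ) = ((2 * j + 1 : ℕ) : ℤ) := by
    push_cast
    ring
  rw [hk] at h1 h2
  have hA : Approx O e m (fun u => (κ u * (u : ℂ) ^ (2 * j)) • H) := by
    rcases hκ with hκ | hκ
    · refine Approx.close (g := fun u => (u : ℂ) ^ (2 * j) • H) ?_ ?_
      · refine approx_form hO hN e J' (2 * j) ?_ h2 m
        intro γ hγ
        rw [h1 γ hγ]
        have g3 : Odd (γ 1 1) := gamma0_odd (dvd_mul_of_dvd_right (dvd_pow_self 2 (by omega)) _) hγ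
        simp only [hκ _ g3, mul_one]
      · intro u hu
        simp only [hκ u hu, one_mul, sub_self]
        exact Tn.zero m
    · refine Approx.close (g := fun u => (c4 u * (u : ℂ) ^ (2 * j)) • H) ?_ ?_
      · refine approx_aux hO hE hN e J' ?_ h2 m
        intro γ hγ
        rw [h1 γ hγ]
        have g3 : Odd (γ 1 1) := gamma0_odd (dvd_mul_of_dvd_right (dvd_pow_self 2 (by omega)) _) hγ
        simp only [hκ _ g3]
      · intro u hu
        simp only [hκ u hu, sub_self]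
        exact Tn.zero m
  have hκO : ∀ u : ℤ, Odd u → κ u ∈ O := by
    intro u hu
    rcases hκ with hκ | hκ
    · rw [hκ u hu]; exact one_mem O
    · rw [hκ u hu]; exact c4_mem O u
  obtain ⟨K, F, -, g2, g3, g4⟩ := hA
  refine ⟨K, F, g2, g3, fun u hu => ?_⟩
  have h5 := (g4 u hu).toT1 ?_
  · have h6 := h3.smul (c := κ u * (u : ℂ) ^ (2 * j)) (mul_mem (hκO u hu)
      (pow_mem (intCast_mem O u) _))
    have h7 := h5.add h6
    rw [smul_sub, sub_add_sub_cancel] at h7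
    exact h7
  · have hF : ∀ i, Tinv (F i) := fun i => tinv_of_slash (k := ((i + 1 : ℕ) : ℤ)) (by
      rw [g2 i _ (Tm_mem _), chr_Tm, one_smul])
    have hH : Tinv H := tinv_of_slash (k := ((2 * j + 1 : ℕ) : ℤ)) (by
      rw [h1 _ (Tm_mem _), chr_Tm, one_mul]
      have : Tm 1 1 = 1 := by simp [Tm, ModularGroup.T]
      rw [this, hκ1, one_smul])
    refine Tinv.sub ?_ (hH.smul _)
    intro τ τ' e
    rw [Finset.sum_apply, Finset.sum_apply]
    exact Finset.sum_congr rfl fun i _ => (hF i).smul _ τ τ' e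

end Vale.Agent.P022.H903
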