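import Vale.Agent.P022.Iface
import Vale.Agent.P022.H903.Main

/-!
# Conversion to the interface
-/

open scoped ModularForm MatrixGroups Manifold Topology
open UpperHalfPlane Filter Matrix CongruenceSubgroup EisensteinSeries Derivative

noncomputable section

namespace Vale.Agent.P022.H903

open Vale.Agent.P022

variable {v : AbsoluteValue ℂ ℝ}

theorem v_nat_le (hv : TwoAdic v) (n : ℕ) : v n ≤ 1 := by
  induction n with
  | zero => simp
  | succ n ih =>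
    push_cast
    exact (hv.nonarch _ _).trans (max_le ih (by simp))

theorem v_int_le (hv : TwoAdic v) (n : ℤ) : v n ≤ 1 := by
  obtain ⟨k, rfl | rfl⟩ := n.eq_nat_or_neg
  · rw [Int.cast_natCast]
    exact v_nat_le hv _
  · rw [Int.cast_neg, v.map_neg, Int.cast_natCast]
    exact v_nat_le hv _

theorem v_odd (hv : TwoAdic v) {n : ℤ} (hn : Odd n) : v n = 1 := by
  refine le_antisymm (v_int_le hv n) ?_
  by_contra h
  push Not at h
  obtain ⟨k, rfl⟩ := hn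
  have h1 := hv.nonarch ((2 * k + 1 : ℤ) : ℂ) (-(2 * k))
  have h2 : ((2 * k + 1 : ℤ) : ℂ) + (-(2 * k)) = 1 := by push_cast; ring
  rw [h2, v.map_one] at h1
  have h3 : v (-(2 * (k : ℂ))) ≤ 1 / 2 := by
    rw [v.map_neg, v.map_mul, hv.two]
    have := v_int_le hv k
    nlinarith [v.nonneg (k : ℂ)]
  have h4 := max_lt h (lt_of_le_of_lt h3 (by norm_num))
  linarith

/-- the valuation ring -/
def Ov (v : AbsoluteValue ℂ ℝ) (hv : TwoAdic v) : Subring ℂ where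
  carrier := {x | v x ≤ 1}
  mul_mem' := by
    intro a b ha hb
    change v (a * b) ≤ 1
    rw [v.map_mul]
    exact mul_le_one₀ ha (v.nonneg _) hb
  one_mem' := by simp
  add_mem' := by
    intro a b ha hb
    exact (hv.nonarch a b).trans (max_le ha hb)
  zero_mem' := by simp
  neg_mem' := by
    intro a ha
    simpa using ha

theorem mem_Ov {hv : TwoAdic v} {x : ℂ} : x ∈ Ov v hv ↔ v x ≤ 1 := Iff.rfl

theorem v_half_pow (hv : TwoAdic v) (s : ℕ) : v ((2 : ℂ) ^ s) = (1 / 2) ^ s := by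
  rw [v.map_pow, hv.two]

theorem exists_small (C : ℝ) : ∃ s : ℕ, (1 / 2 : ℝ) ^ s * C ≤ 1 := by
  by_cases hC : C ≤ 0
  · exact ⟨0, by linarith⟩
  · push Not at hC
    obtain ⟨s, hs⟩ := exists_pow_lt_of_lt_one (inv_pos.2 hC) (by norm_num : (1 / 2 : ℝ) < 1)
    refine ⟨s, ?_⟩
    have := mul_le_mul_of_nonneg_right hs.le hC.le
    rwa [inv_mul_cancel₀ hC.ne'] at this

theorem v_root {z : ℂ} {n : ℕ} (hn : 0 < n) (h : z ^ n = 1) : v z = 1 := by
  have h1 : v z ^ n = 1 := by rw [← v.map_pow, h, v.map_one]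
  exact (pow_eq_one_iff_of_nonneg (v.nonneg z) hn.ne').1 h1

theorem good_Ov (hv : TwoAdic v) : Good (Ov v hv) where
  root z n hn h := (v_root hn h).le
  odd n hn := by
    rw [mem_Ov, map_inv₀, v_odd hv hn, inv_one]
  half c := by
    obtain ⟨s, hs⟩ := exists_small (v c)
    refine ⟨s, ?_⟩
    rw [mem_Ov, v.map_mul, v_half_pow hv]
    exact hs

theorem qterm (h : ℕ) (n : ℕ) (τ : ℂ) : Function.Periodic.qParam (h : ℝ) τ ^ n =
    Complex.exp (2 * Real.pi * Complex.I * n * τ / h) := by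
  rw [Function.Periodic.qParam, ← Complex.exp_nat_mul]
  congr 1
  push_cast
  ring

theorem QBdd.toBd (hv : TwoAdic v) {C : ℝ} {f : ℍ → ℂ} (hf : QBdd v C f) :
    Bd (Ov v hv) f := by
  obtain ⟨h, c, hh, hc, hs⟩ := hf
  obtain ⟨s, hs'⟩ := exists_small C
  refine ⟨h, hh, s, fun n => 2 ^ s * c n, fun n => ?_, fun τ => ?_⟩
  · rw [mem_Ov, v.map_mul, v_half_pow hv]
    exact (mul_le_mul_of_nonneg_left (hc n) (by positivity)).trans hs'
  · have := (hs τ).mul_left ((2 : ℂ) ^ s)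
    refine hs_congr this fun n => ?_
    rw [qterm, mul_assoc]

theorem VBdd.toCusps (hv : TwoAdic v) {k : ℤ} {f : ℍ → ℂ} (hf : VBdd v k f) :
    Cusps (Ov v hv) k f := fun γ => by
  obtain ⟨C, hC⟩ := hf γ
  exact QBdd.toBd hv hC

/-- the hypotheses on the nebentypus -/
structure IsNeb (N : ℕ) (X : ℕ → ℂ) (κ : ℤ → ℂ) : Prop where
  mul : ∀ a b : ℕ, Odd a → Odd b → Nat.Coprime a N → Nat.Coprime b N → X (a * b) = X a * X b
  kap : (∀ d : ℤ, Odd d → κ d = 1) ∨ (∀ d : ℤ, Odd d → κ d = c4 d)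
  one : ∀ d : ℕ, Odd d → d ≡ 1 [MOD N] → X d = κ d

theorem c4_one : c4 1 = 1 := by
  rw [c4, ZMod.χ₄_int_one_mod_four (by norm_num)]; norm_num

theorem c4_mul (a b : ℤ) : c4 (a * b) = c4 a * c4 b := by
  rw [c4, c4, c4, Int.cast_mul, map_mul, Int.cast_mul]

theorem c4_congr {a b : ℤ} (h : (4 : ℤ) ∣ a - b) : c4 a = c4 b := by
  rw [c4, c4]
  have : ((a : ℤ) : ZMod 4) = ((b : ℤ) : ZMod 4) := by
    rw [← sub_eq_zero, ← Int.cast_sub, ZMod.intCast_zmod_eq_zero_iff_dvd]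
    exact h
  rw [this]

namespace IsNeb

variable {N : ℕ} {X : ℕ → ℂ} {κ : ℤ → ℂ}

theorem kap_sq (h : IsNeb N X κ) {d : ℤ} (hd : Odd d) : κ d * κ d = 1 := by
  rcases h.kap with hk | hk
  · rw [hk d hd, one_mul]
  · rw [hk d hd, c4_sq hd]

theorem kap_mul (h : IsNeb N X κ) {a b : ℤ} (ha : Odd a) (hb : Odd b) :
    κ (a * b) = κ a * κ b := by
  rcases h.kap with hk | hk
  · rw [hk _ (ha.mul hb), hk a ha, hk b hb, one_mul]
  · rw [hk _ (ha.mul hb), hk a ha, hk b hb, c4_mul]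

theorem kap_congr (h : IsNeb N X κ) {a b : ℤ} (ha : Odd a) (hab : (4 : ℤ) ∣ a - b) :
    κ a = κ b := by
  have hb : Odd b := by
    obtain ⟨k, hk⟩ := hab
    obtain ⟨l, rfl⟩ := ha
    exact ⟨l - 2 * k, by linarith⟩
  rcases h.kap with hk | hk
  · rw [hk a ha, hk b hb]
  · rw [hk a ha, hk b hb, c4_congr hab]

/-- `Y d = X d κ d` -/
def Y (X : ℕ → ℂ) (κ : ℤ → ℂ) (d : ℕ) : ℂ := X d * κ d

theorem Y_mul (h : IsNeb N X κ) {a b : ℕ} (ha : Odd a) (hb : Odd b) (ha' : Nat.Coprime a N)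
    (hb' : Nat.Coprime b N) : Y X κ (a * b) = Y X κ a * Y X κ b := by
  rw [Y, Y, Y, h.mul a b ha hb ha' hb', Nat.cast_mul,
    h.kap_mul (by exact_mod_cast ha) (by exact_mod_cast hb)]
  ring

theorem Y_one (h : IsNeb N X κ) {d : ℕ} (hd : Odd d) (h1 : d ≡ 1 [MOD N]) : Y X κ d = 1 := by
  rw [Y, h.one d hd h1, h.kap_sq (by exact_mod_cast hd)]

theorem exists_inv (hN : Odd N) {d : ℕ} (hd : Nat.Coprime d N) :
    ∃ d' : ℕ, Odd d' ∧ d * d' ≡ 1 [MOD N] := by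
  have hN0 : 0 < N := hN.pos
  by_cases hN1 : N = 1
  · exact ⟨1, odd_one, by rw [hN1]; exact Nat.modEq_one⟩
  obtain ⟨x, hx⟩ := Nat.exists_mul_mod_eq_one_of_coprime hd (by omega)
  have hx' : d * x ≡ 1 [MOD N] := by
    rw [Nat.ModEq, hx.2, Nat.mod_eq_of_lt (by omega)]
  by_cases hxo : Odd x
  · exact ⟨x, hxo, hx'⟩
  · refine ⟨x + N, ?_, ?_⟩
    · rw [Nat.not_odd_iff_even] at hxo
      exact hxo.add_odd hN
    · rw [mul_add]
      calc d * x + d * N ≡ d * x + 0 [MOD N] :=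
            Nat.ModEq.add_left _ (Nat.modEq_zero_iff_dvd.2 (dvd_mul_left _ _))
        _ ≡ 1 [MOD N] := by rw [add_zero]; exact hx'

theorem Y_congr (h : IsNeb N X κ) (hN : Odd N) {a b : ℕ} (ha : Odd a) (hb : Odd b)
    (hab : a ≡ b [MOD N]) (hc : Nat.Coprime a N) : Y X κ a = Y X κ b := by
  obtain ⟨d, hd, hd1⟩ := exists_inv hN hc
  have hdc : Nat.Coprime d N := by
    have h3 := hd1.gcd_eq
    rw [Nat.gcd_one_left] at h3
    exact Nat.Coprime.coprime_mul_left h3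
  have hc' : Nat.Coprime b N := by
    have h3 := hab.gcd_eq
    rw [Nat.Coprime, ← h3]
    exact hc
  have h1 : Y X κ a * Y X κ d = 1 := by
    rw [← h.Y_mul ha hd hc hdc, h.Y_one (ha.mul hd) hd1]
  have h2 : Y X κ b * Y X κ d = 1 := by
    rw [← h.Y_mul hb hd hc' hdc, h.Y_one (hb.mul hd) ((hab.symm.mul_right d).trans hd1)]
  have h3 : Y X κ d ≠ 0 := right_ne_zero_of_mul_eq_one h1
  exact mul_right_cancel₀ h3 (h1.trans h2.symm)

/-- odd representative -/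
def rep (N : ℕ) (a : ZMod N) : ℕ := if Odd a.val then a.val else a.val + N

theorem rep_odd (hN : Odd N) (a : ZMod N) : Odd (rep N a) := by
  rw [rep]
  split_ifs with h
  · exact h
  · rw [Nat.not_odd_iff_even] at h
    exact h.add_odd hN

theorem rep_cast [NeZero N] (a : ZMod N) : ((rep N a : ℕ) : ZMod N) = a := by
  rw [rep]
  split_ifs <;> simp

theorem rep_coprime [NeZero N] {a : ZMod N} (ha : IsUnit a) : Nat.Coprime (rep N a) N := by
  rw [← rep_cast a] at ha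
  exact (ZMod.isUnit_iff_coprime _ _).1 ha

open Classical in
/-- the tame character -/
def tame (X : ℕ → ℂ) (κ : ℤ → ℂ) (h : IsNeb N X κ) (hN : Odd N) : DirichletCharacter ℂ N where
  toFun a := if IsUnit a then Y X κ (rep N a) else 0
  map_one' := by
    have : NeZero N := ⟨hN.pos.ne'⟩
    simp only [isUnit_one, if_true]
    refine h.Y_one (rep_odd hN _) ?_
    rw [← ZMod.natCast_eq_natCast_iff, rep_cast]
    simp
  map_mul' := by
    have : NeZero N := ⟨hN.pos.ne'⟩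
    intro a b
    by_cases ha : IsUnit a
    · by_cases hb : IsUnit b
      · simp only [ha, hb, ha.mul hb, if_true]
        rw [← h.Y_mul (rep_odd hN _) (rep_odd hN _) (rep_coprime ha) (rep_coprime hb)]
        refine h.Y_congr hN (rep_odd hN _) ((rep_odd hN _).mul (rep_odd hN _)) ?_
          (rep_coprime (ha.mul hb))
        rw [← ZMod.natCast_eq_natCast_iff, rep_cast]
        push_cast
        rw [rep_cast, rep_cast]
      · have : ¬ IsUnit (a * b) := fun h' => hb (isUnit_of_mul_isUnit_right h')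
        simp only [hb, this, if_false, mul_zero]
    · have : ¬ IsUnit (a * b) := fun h' => ha (isUnit_of_mul_isUnit_left h')
      simp only [ha, this, if_false, zero_mul]
  map_nonunit' := by
    intro a ha
    simp only [ha, if_false]

theorem tame_apply (h : IsNeb N X κ) (hN : Odd N) {d : ℕ} (hd : Odd d) (hc : Nat.Coprime d N) :
    tame X κ h hN (d : ZMod N) * κ d = X d := by
  have : NeZero N := ⟨hN.pos.ne'⟩
  have hu : IsUnit (d : ZMod N) := (ZMod.isUnit_iff_coprime _ _).2 hc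
  have e1 : tame X κ h hN (d : ZMod N) = Y X κ (rep N (d : ZMod N)) := if_pos hu
  rw [e1, h.Y_congr hN (rep_odd hN _) hd (by
    rw [← ZMod.natCast_eq_natCast_iff, rep_cast]) (rep_coprime hu), Y, mul_assoc,
    h.kap_sq (by exact_mod_cast hd), mul_one]

end IsNeb

/-- building a modular form -/
theorem mk_MF {O : Subring ℂ} {N : ℕ} {k : ℤ} {F : ℍ → ℂ} (h1 : ∀ γ ∈ Gamma1 N, F ∣[k] γ = F)
    (h2 : Cusps O k F) : ∃ g : MF N k, (g : ℍ → ℂ) = F := by
  refine ⟨{ toFun := F, slash_action_eq' := ?_, holo' := ?_, bdd_at_cusps' := ?_ }, rfl⟩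
  · rintro γ ⟨δ, hδ, rfl⟩
    exact h1 δ hδ
  · exact h2.toBd.mdiff
  · intro c hc
    have hc' : IsCusp c 𝒮ℒ := hc.mono (by
      rintro γ ⟨δ, -, rfl⟩
      exact ⟨δ, rfl⟩)
    rw [OnePoint.isBoundedAt_iff_forall_SL2Z hc']
    intro γ _
    exact (h2 γ).bdd

/-! ### The nebentypus for all signs -/

theorem sl_mul_11 (g g' : SL(2, ℤ)) : (g * g') 1 1 = g 1 0 * g' 0 1 + g 1 1 * g' 1 1 := by
  simp [Matrix.mul_apply, Fin.sum_univ_two]

theorem sl_mul_10 (g g' : SL(2, ℤ)) : (g * g') 1 0 = g 1 0 * g' 0 0 + g 1 1 * g' 1 0 := by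
  simp [Matrix.mul_apply, Fin.sum_univ_two]

theorem slash_Tpow {M : ℕ} {X : ℕ → ℂ} (hX1 : X 1 = 1) {f : ℍ → ℂ}
    (hf : ∀ γ ∈ Gamma0 M, ∀ d : ℕ, γ 1 1 = d → f ∣[(1 : ℤ)] γ = X d • f) (k : ℤ) :
    f ∣[(1 : ℤ)] (ModularGroup.T ^ k : SL(2, ℤ)) = f := by
  have h1 : (ModularGroup.T ^ k : SL(2, ℤ)) 1 1 = ((1 : ℕ) : ℤ) := by
    rw [ModularGroup.coe_T_zpow]; simp
  have h2 : (ModularGroup.T ^ k : SL(2, ℤ)) ∈ Gamma0 M := by
    rw [Gamma0_mem, ModularGroup.coe_T_zpow]; simp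
  rw [hf _ h2 1 h1, hX1, one_smul]

theorem slash_pos {N : ℕ} (hN : Odd N) {J : ℕ} (hJ : 2 ≤ J) {X : ℕ → ℂ} {κ : ℤ → ℂ}
    (h : IsNeb N X κ) {f : ℍ → ℂ}
    (hf : ∀ γ ∈ Gamma0 (N * 2 ^ J), ∀ d : ℕ, γ 1 1 = d → f ∣[(1 : ℤ)] γ = X d • f)
    {γ : SL(2, ℤ)} (hγ : γ ∈ Gamma0 (N * 2 ^ J)) (hc : γ 1 0 ≠ 0) :
    f ∣[(1 : ℤ)] γ = (chr (IsNeb.tame X κ h hN) γ * κ (γ 1 1)) • f := by
  have hX1 : X 1 = 1 := by
    have := h.Y_one odd_one (Nat.ModEq.refl 1)
    have h2 := h.one 1 odd_one (Nat.ModEq.refl 1)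
    have hk1 : κ ((1 : ℕ) : ℤ) = 1 := by
      rcases h.kap with hk | hk
      · exact hk _ (by simp)
      · rw [hk _ (by simp)]; exact c4_one
    rw [h2, hk1]
  obtain ⟨k, hk⟩ : ∃ k : ℤ, 0 < γ 1 0 * k + γ 1 1 := by
    rcases lt_or_gt_of_ne hc with h0 | h0
    · refine ⟨-(|γ 1 1| + 1), ?_⟩
      nlinarith [neg_abs_le (γ 1 1), abs_nonneg (γ 1 1)]
    · refine ⟨|γ 1 1| + 1, ?_⟩
      nlinarith [neg_abs_le (γ 1 1), abs_nonneg (γ 1 1)]
  obtain ⟨d, hd⟩ := Int.eq_ofNat_of_zero_le hk.le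
  set δ : SL(2, ℤ) := γ * ModularGroup.T ^ k with hδ
  have e11 : δ 1 1 = γ 1 0 * k + γ 1 1 := by
    rw [hδ, sl_mul_11, ModularGroup.coe_T_zpow]
    simp
  have hδm : δ ∈ Gamma0 (N * 2 ^ J) := by
    refine mul_mem hγ ?_
    rw [Gamma0_mem, ModularGroup.coe_T_zpow]
    simp
  have hdv : ((N * 2 ^ J : ℕ) : ℤ) ∣ γ 1 0 := by
    rwa [Gamma0_mem, ZMod.intCast_zmod_eq_zero_iff_dvd] at hγ
  have h1 : f ∣[(1 : ℤ)] γ = X d • f := by
    have e1 : γ = δ * ModularGroup.T ^ (-k) := by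
      rw [hδ, mul_assoc, ← _root_.zpow_add, add_neg_cancel, zpow_zero, mul_one]
    rw [e1, SlashAction.slash_mul, hf δ hδm d (e11.trans hd), ModularForm.SL_smul_slash,
      slash_Tpow hX1 hf]
  have hodd : Odd (γ 1 1) :=
    gamma0_odd (dvd_mul_of_dvd_right (dvd_pow_self 2 (by omega)) _) hγ
  have hoddδ : Odd (δ 1 1) :=
    gamma0_odd (dvd_mul_of_dvd_right (dvd_pow_self 2 (by omega)) _) hδm
  have hdodd : Odd d := by
    rw [e11, hd] at hoddδ
    exact_mod_cast hoddδ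
  have hcop : Nat.Coprime d N := by
    have h2 := sl_det δ
    have h3 : (N : ℤ) ∣ δ 1 0 := by
      rw [Gamma0_mem, ZMod.intCast_zmod_eq_zero_iff_dvd] at hδm
      refine dvd_trans ?_ hδm
      push_cast
      exact dvd_mul_right _ _
    obtain ⟨z, hz⟩ := h3
    have h4 : IsCoprime (d : ℤ) (N : ℤ) := by
      refine ⟨δ 0 0, -(δ 0 1 * z), ?_⟩
      have h5 : δ 1 1 = (d : ℤ) := e11.trans hd
      rw [← h5]
      rw [hz] at h2
      linarith
    exact Nat.isCoprime_iff_coprime.1 h4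
  rw [h1]
  congr 1
  rw [← h.tame_apply hN hdodd hcop, chr]
  have e2 : ((d : ℕ) : ZMod N) = ((γ 1 1 : ℤ) : ZMod N) := by
    have h5 : ((d : ℤ) : ZMod N) = ((γ 1 0 * k + γ 1 1 : ℤ) : ZMod N) := by
      rw [hd]
    have h6 : ((γ 1 0 : ℤ) : ZMod N) = 0 := by
      rw [ZMod.intCast_zmod_eq_zero_iff_dvd]
      refine dvd_trans ?_ hdv
      push_cast
      exact dvd_mul_right _ _
    have h7 : ((d : ℕ) : ZMod N) = ((d : ℤ) : ZMod N) := by push_cast; rfl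
    rw [h7, h5]
    push_cast
    rw [h6, zero_mul, zero_add]
  have e3 : κ (d : ℤ) = κ (γ 1 1) := by
    refine h.kap_congr (by exact_mod_cast hdodd) ?_
    have h8 : (4 : ℤ) ∣ γ 1 0 := by
      refine dvd_trans ?_ hdv
      push_cast
      refine dvd_mul_of_dvd_right ?_ _
      have : (4 : ℤ) = 2 ^ 2 := by norm_num
      rw [this]
      exact pow_dvd_pow 2 hJ
    have h9 : (d : ℤ) - γ 1 1 = γ 1 0 * k := by
      have : (d : ℤ) = γ 1 0 * k + γ 1 1 := hd.symm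
      linarith
    rw [h9]
    exact h8.mul_right k
  rw [e2, e3]

theorem slash_all {N : ℕ} (hN : Odd N) {J : ℕ} (hJ : 2 ≤ J) {X : ℕ → ℂ} {κ : ℤ → ℂ}
    (h : IsNeb N X κ) {f : ℍ → ℂ}
    (hf : ∀ γ ∈ Gamma0 (N * 2 ^ J), ∀ d : ℕ, γ 1 1 = d → f ∣[(1 : ℤ)] γ = X d • f)
    {γ : SL(2, ℤ)} (hγ : γ ∈ Gamma0 (N * 2 ^ J)) :
    f ∣[(1 : ℤ)] γ = (chr (IsNeb.tame X κ h hN) γ * κ (γ 1 1)) • f := by
  by_cases hc : γ 1 0 = 0
  · have hX1 : X 1 = 1 := by
      have h2 := h.one 1 odd_one (Nat.ModEq.refl 1)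
      have hk1 : κ ((1 : ℕ) : ℤ) = 1 := by
        rcases h.kap with hk | hk
        · exact hk _ (by simp)
        · rw [hk _ (by simp)]; exact c4_one
      rw [h2, hk1]
    set M : ℕ := N * 2 ^ J with hM
    have hM0 : (M : ℤ) ≠ 0 := by
      have : 0 < M := Nat.mul_pos hN.pos (by positivity)
      exact_mod_cast this.ne'
    set δ : SL(2, ℤ) := ⟨!![1, 0; (M : ℤ), 1], by simp [Matrix.det_fin_two]⟩ with hδ
    have d10 : δ 1 0 = M := rfl
    have d11 : δ 1 1 = ((1 : ℕ) : ℤ) := rfl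
    have hδm : δ ∈ Gamma0 M := by
      rw [Gamma0_mem, d10]
      simp
    have hfδ : f ∣[(1 : ℤ)] δ = f := by rw [hf δ hδm 1 d11, hX1, one_smul]
    have e10 : (δ * γ) 1 0 = M * γ 0 0 := by
      rw [sl_mul_10, d10, d11, hc]
      simp
    have e11 : (δ * γ) 1 1 = M * γ 0 1 + γ 1 1 := by
      rw [sl_mul_11, d10, d11]
      simp
    have h00 : γ 0 0 ≠ 0 := by
      intro h0
      have := sl_det γ
      rw [h0, hc] at this
      simp at this
    have h1 := slash_pos hN hJ h hf (mul_mem hδm hγ) (by rw [e10]; exact mul_ne_zero hM0 h00)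
    rw [SlashAction.slash_mul, hfδ] at h1
    rw [h1]
    congr 2
    · rw [chr, chr, e11, hM]
      push_cast
      simp
    · rw [e11]
      refine h.kap_congr ?_ ?_
      · rw [← e11]
        exact gamma0_odd (N := M) (dvd_mul_of_dvd_right (dvd_pow_self 2 (by omega)) _)
          (mul_mem hδm hγ)
      · rw [add_sub_cancel_right, hM]
        push_cast
        refine Dvd.dvd.mul_right (dvd_mul_of_dvd_right ?_ _) _
        have : (4 : ℤ) = 2 ^ 2 := by norm_num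
        rw [this]
        exact pow_dvd_pow 2 hJ
  · exact slash_pos hN hJ h hf hγ hc

end Vale.Agent.P022.H903
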