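import Vale.Agent.P022.H903.QI
import Mathlib.LinearAlgebra.Matrix.FixedDetMatrices
import Mathlib.NumberTheory.ModularForms.EisensteinSeries.QExpansion

/-!
# Bounded `q`-expansions at all cusps
-/

open scoped ModularForm MatrixGroups Manifold Topology
open UpperHalfPlane Filter Matrix

noncomputable section

namespace Vale.Agent.P022.H903

variable {O : Subring ℂ} {h : ℕ}

/-- `F` has a `q_h`-expansion for some `h > 0`, with coefficients in `2^(-s) O`. -/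
def Bd (O : Subring ℂ) (F : ℍ → ℂ) : Prop :=
  ∃ h : ℕ, 0 < h ∧ ∃ s : ℕ, QI O h ((2 : ℂ) ^ s • F)

theorem two_mem (O : Subring ℂ) : (2 : ℂ) ∈ O := by
  exact_mod_cast natCast_mem O 2

theorem QI.toBd {F : ℍ → ℂ} (hh : 0 < h) (hF : QI O h F) : Bd O F :=
  ⟨h, hh, 0, by simpa using hF⟩

theorem Bd.mdiff {F : ℍ → ℂ} (hF : Bd O F) : MDiff F := by
  obtain ⟨h, hh, s, hs⟩ := hF
  have h1 := hs.mdiff hh
  have h2 : F = ((2 : ℂ) ^ s)⁻¹ • ((2 : ℂ) ^ s • F) := by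
    rw [smul_smul, inv_mul_cancel₀ (pow_ne_zero _ two_ne_zero), one_smul]
  rw [h2]
  exact h1.const_smul _

theorem Bd.bdd {F : ℍ → ℂ} (hF : Bd O F) : IsBoundedAtImInfty F := by
  obtain ⟨h, hh, s, hs⟩ := hF
  have h1 := hs.bdd hh
  have h2 : F = ((2 : ℂ) ^ s)⁻¹ • ((2 : ℂ) ^ s • F) := by
    rw [smul_smul, inv_mul_cancel₀ (pow_ne_zero _ two_ne_zero), one_smul]
  rw [h2]
  exact Filter.BoundedAtFilter.smul _ h1

theorem Bd.add {F G : ℍ → ℂ} (hF : Bd O F) (hG : Bd O G) : Bd O (F + G) := by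
  obtain ⟨h, hh, s, hs⟩ := hF
  obtain ⟨h', hh', s', hs'⟩ := hG
  refine ⟨h * h', Nat.mul_pos hh hh', s + s', ?_⟩
  have h1 := (hs.mulPeriod' hh').smul (pow_mem (two_mem O) s')
  have h2 := (hs'.mulPeriod hh).smul (pow_mem (two_mem O) s)
  have := h1.add h2
  convert this using 1
  rw [smul_smul, smul_smul, smul_add, ← pow_add, ← pow_add, add_comm s' s]

theorem Bd.mul {F G : ℍ → ℂ} (hF : Bd O F) (hG : Bd O G) : Bd O (F * G) := by
  obtain ⟨h, hh, s, hs⟩ := hF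
  obtain ⟨h', hh', s', hs'⟩ := hG
  refine ⟨h * h', Nat.mul_pos hh hh', s + s', ?_⟩
  have h1 := (hs.mulPeriod' hh')
  have h2 := (hs'.mulPeriod hh)
  have := h1.mul h2
  convert this using 1
  rw [smul_mul_smul_comm, ← pow_add]

theorem Bd.const (hO : Good O) (c : ℂ) : Bd O (fun _ => c) := by
  obtain ⟨s, hs⟩ := hO.half c
  refine ⟨1, one_pos, s, ?_⟩
  have e : (2 : ℂ) ^ s • (fun _ : ℍ => c) = fun _ => (2 : ℂ) ^ s * c := by ext; simp
  rw [e]
  exact QI.const hs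

theorem Bd.smul (hO : Good O) {F : ℍ → ℂ} (hF : Bd O F) (c : ℂ) : Bd O (c • F) := by
  have : c • F = (fun _ => c) * F := by ext τ; simp
  rw [this]
  exact (Bd.const hO c).mul hF

theorem Bd.neg {F : ℍ → ℂ} (hF : Bd O F) : Bd O (-F) := by
  obtain ⟨h, hh, s, hs⟩ := hF
  exact ⟨h, hh, s, by rw [smul_neg]; exact hs.neg⟩

theorem Bd.sub {F G : ℍ → ℂ} (hF : Bd O F) (hG : Bd O G) : Bd O (F - G) := by
  rw [sub_eq_add_neg]
  exact hF.add hG.neg

theorem Bd.pow {F : ℍ → ℂ} (hF : Bd O F) (n : ℕ) : Bd O (F ^ n) := by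
  induction n with
  | zero => rw [pow_zero]; exact QI.one.toBd (h := 1) one_pos
  | succ n ih => rw [pow_succ]; exact ih.mul hF

theorem Bd.sum {ι : Type*} {s : Finset ι} {F : ι → ℍ → ℂ} (hF : ∀ i ∈ s, Bd O (F i)) :
    Bd O (∑ i ∈ s, F i) := by
  classical
  induction s using Finset.induction_on with
  | empty => simpa using QI.zero.toBd (h := 1) one_pos
  | insert i s hi ih =>
    rw [Finset.sum_insert hi]
    exact (hF i (Finset.mem_insert_self _ _)).add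
      (ih fun j hj => hF j (Finset.mem_insert_of_mem hj))

theorem Bd.deriv (hO : Good O) {F : ℍ → ℂ} (hF : Bd O F) :
    Bd O (Derivative.normalizedDerivOfComplex F) := by
  obtain ⟨h, hh, s, hs⟩ := hF
  have h1 := (hs.deriv hh).toBd hh
  have h2 : F = ((2 : ℂ) ^ s)⁻¹ • ((2 : ℂ) ^ s • F) := by
    rw [smul_smul, inv_mul_cancel₀ (pow_ne_zero _ two_ne_zero), one_smul]
  have hhc : (h : ℂ) ≠ 0 := by exact_mod_cast hh.ne'
  have h3 : Derivative.normalizedDerivOfComplex F = (((2 : ℂ) ^ s)⁻¹ * (h : ℂ)⁻¹) •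
      ((h : ℂ) • Derivative.normalizedDerivOfComplex ((2 : ℂ) ^ s • F)) := by
    conv_lhs => rw [h2]
    rw [Derivative.normalizedDerivOfComplex_smul _ _ (hs.mdiff hh), smul_smul, mul_assoc,
      inv_mul_cancel₀ hhc, mul_one]
  rw [h3]
  exact h1.smul hO _

/-- all translates of `F` under `SL(2, ℤ)` have bounded expansions -/
def Cusps (O : Subring ℂ) (k : ℤ) (F : ℍ → ℂ) : Prop :=
  ∀ γ : SL(2, ℤ), Bd O (F ∣[k] γ)

theorem Cusps.toBd {k : ℤ} {F : ℍ → ℂ} (hF : Cusps O k F) : Bd O F := by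
  have := hF 1
  rwa [SlashAction.slash_one] at this

theorem Cusps.mul {k l : ℤ} {F G : ℍ → ℂ} (hF : Cusps O k F) (hG : Cusps O l G) :
    Cusps O (k + l) (F * G) := fun γ => by
  rw [ModularForm.mul_slash_SL2]
  exact (hF γ).mul (hG γ)

theorem Cusps.add {k : ℤ} {F G : ℍ → ℂ} (hF : Cusps O k F) (hG : Cusps O k G) :
    Cusps O k (F + G) := fun γ => by
  rw [SlashAction.add_slash]
  exact (hF γ).add (hG γ)

theorem Cusps.smul (hO : Good O) {k : ℤ} {F : ℍ → ℂ} (hF : Cusps O k F) (c : ℂ) :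
    Cusps O k (c • F) := fun γ => by
  rw [ModularForm.SL_smul_slash]
  exact (hF γ).smul hO c

theorem Cusps.sub (hO : Good O) {k : ℤ} {F G : ℍ → ℂ} (hF : Cusps O k F) (hG : Cusps O k G) :
    Cusps O k (F - G) := by
  have : F - G = F + (-1 : ℂ) • G := by ext; simp [sub_eq_add_neg]
  rw [this]
  exact hF.add (hG.smul hO _)

theorem Cusps.pow {k : ℤ} {F : ℍ → ℂ} (hF : Cusps O k F) (n : ℕ) :
    Cusps O (n * k) (F ^ n) := by
  induction n with
  | zero =>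
    intro γ
    simp only [Nat.cast_zero, zero_mul, pow_zero]
    rw [ModularForm.is_invariant_one]
    exact QI.one.toBd (h := 1) one_pos
  | succ n ih =>
    rw [pow_succ]
    have := ih.mul hF
    convert this using 1
    push_cast
    ring

theorem Cusps.slash {k : ℤ} {F : ℍ → ℂ} (hF : Cusps O k F) (γ : SL(2, ℤ)) :
    Cusps O k (F ∣[k] γ) := fun δ => by
  rw [← SlashAction.slash_mul]
  exact hF _

theorem Cusps.sum {k : ℤ} {ι : Type*} {s : Finset ι} {F : ι → ℍ → ℂ}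
    (hF : ∀ i ∈ s, Cusps O k (F i)) : Cusps O k (∑ i ∈ s, F i) := fun γ => by
  rw [SlashAction.sum_slash]
  exact Bd.sum fun i hi => hF i hi γ

/-! ### slash by integral matrices of positive determinant -/

/-- the matrix `[a, b; 0, d]` -/
def tri (a : ℕ) (b : ℤ) (d : ℕ) (ha : 0 < a) (hd : 0 < d) : GL (Fin 2) ℝ :=
  GeneralLinearGroup.mkOfDetNeZero !![(a : ℝ), (b : ℝ); 0, (d : ℝ)] (by
    rw [Matrix.det_fin_two_of]
    have h1 : (a : ℝ) ≠ 0 := by exact_mod_cast ha.ne'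
    have h2 : (d : ℝ) ≠ 0 := by exact_mod_cast hd.ne'
    rw [mul_zero, sub_zero]
    exact mul_ne_zero h1 h2)

theorem tri_coe (a : ℕ) (b : ℤ) (d : ℕ) (ha : 0 < a) (hd : 0 < d) :
    (tri a b d ha hd : Matrix (Fin 2) (Fin 2) ℝ) = !![(a : ℝ), (b : ℝ); 0, (d : ℝ)] := rfl

theorem slash_tri (k : ℤ) (F : ℍ → ℂ) (a : ℕ) (b : ℤ) (d : ℕ) (ha : 0 < a) (hd : 0 < d) (τ : ℍ) :
    ∃ τ' : ℍ, (τ' : ℂ) = (a * τ + b) / d ∧
      (F ∣[k] tri a b d ha hd) τ = ((a * d : ℂ) ^ (k - 1) * (d : ℂ) ^ (-k)) * F τ' := by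
  set g : GL (Fin 2) ℝ := tri a b d ha hd with hg
  have hM : (g : Matrix (Fin 2) (Fin 2) ℝ) = !![(a : ℝ), b; 0, d] := tri_coe a b d ha hd
  have hdet : g.det.val = a * d := by
    rw [GeneralLinearGroup.val_det_apply, hM, Matrix.det_fin_two_of]; ring
  have hpos : 0 < g.det.val := by
    rw [hdet]; exact_mod_cast Nat.mul_pos ha hd
  refine ⟨g • τ, ?_, ?_⟩
  · rw [UpperHalfPlane.coe_smul_of_det_pos hpos]
    simp [UpperHalfPlane.num, UpperHalfPlane.denom, hM]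
  · rw [ModularForm.slash_apply]
    have hσ : σ g (F (g • τ)) = F (g • τ) := by
      rw [σ, if_pos hpos]
      rfl
    rw [hσ, hdet]
    have hde : UpperHalfPlane.denom g τ = d := by
      simp [UpperHalfPlane.denom, hM]
    rw [hde]
    have : |(a : ℝ) * d| = a * d := abs_of_pos (by exact_mod_cast Nat.mul_pos ha hd)
    rw [this]
    push_cast
    ring

theorem slash_tri' (k : ℤ) (F : ℍ → ℂ) (a : ℕ) (b : ℤ) (d : ℕ) (ha : 0 < a) (hd : 0 < d)
    (τ τ' : ℍ) (e : (τ' : ℂ) = (a * τ + b) / d) :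
      (F ∣[k] tri a b d ha hd) τ = ((a * d : ℂ) ^ (k - 1) * (d : ℂ) ^ (-k)) * F τ' := by
  obtain ⟨τ'', e1, e2⟩ := slash_tri k F a b d ha hd τ
  have : τ'' = τ' := by
    apply UpperHalfPlane.ext
    rw [e1, e]
  rw [← this]
  exact e2

/-- exact transfer of integrality -/
theorem QI.tri (hO : Good O) {k : ℤ} {F : ℍ → ℂ} (hh : 0 < h) (hF : QI O h F) (a : ℕ) (b : ℤ)
    (d : ℕ) (ha : 0 < a) (hd : 0 < d) :
    QI O (d * h) (((a * d : ℂ) ^ (k - 1) * (d : ℂ) ^ (-k))⁻¹ • (F ∣[k] H903.tri a b d ha hd)) := by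
  refine QI.comp_tri hO hh hF ha hd b fun τ τ' e => ?_
  rw [Pi.smul_apply, slash_tri' k F a b d ha hd τ τ' e, smul_eq_mul]
  have h1 : (a : ℂ) ≠ 0 := by exact_mod_cast ha.ne'
  have h2 : (d : ℂ) ≠ 0 := by exact_mod_cast hd.ne'
  rw [← mul_assoc, inv_mul_cancel₀, one_mul]
  exact mul_ne_zero (zpow_ne_zero _ (mul_ne_zero h1 h2)) (zpow_ne_zero _ h2)

theorem Bd.tri (hO : Good O) {k : ℤ} {F : ℍ → ℂ} (hF : Bd O F) (a : ℕ) (b : ℤ)
    (d : ℕ) (ha : 0 < a) (hd : 0 < d) : Bd O (F ∣[k] H903.tri a b d ha hd) := by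
  obtain ⟨h, hh, s, hs⟩ := hF
  have h0 : (((a * d : ℂ) ^ (k - 1) * (d : ℂ) ^ (-k))) ≠ 0 := by
    have h1 : (a : ℂ) ≠ 0 := by exact_mod_cast ha.ne'
    have h2 : (d : ℂ) ≠ 0 := by exact_mod_cast hd.ne'
    exact mul_ne_zero (zpow_ne_zero _ (mul_ne_zero h1 h2)) (zpow_ne_zero _ h2)
  have h1 := (QI.tri (k := k) hO hh hs a b d ha hd).toBd (Nat.mul_pos hd hh)
  have h2 := h1.smul hO (((a * d : ℂ) ^ (k - 1) * (d : ℂ) ^ (-k)) * ((2 : ℂ) ^ s)⁻¹)
  convert h2 using 1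
  ext τ
  obtain ⟨τ', e1, e2⟩ := slash_tri k F a b d ha hd τ
  have e3 := slash_tri' k ((2 : ℂ) ^ s • F) a b d ha hd τ τ' e1
  simp only [Pi.smul_apply, smul_eq_mul, e2, e3]
  have : ((2 : ℂ) ^ s) ≠ 0 := pow_ne_zero _ two_ne_zero
  field_simp

/-- Hermite normal form -/
theorem hermite {m : ℤ} (hm : 0 < m) (A : FixedDetMatrix (Fin 2) ℤ m) :
    ∃ (γ : SL(2, ℤ)) (B : FixedDetMatrix (Fin 2) ℤ m), A = γ • B ∧ B.1 1 0 = 0 ∧ 0 < B.1 0 0 := by
  induction A using FixedDetMatrices.induction_on (hm := hm.ne') with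
  | h0 A h1 h2 h3 h4 => exact ⟨1, A, (one_smul _ _).symm, h1, h2⟩
  | hS B hB =>
    obtain ⟨γ, C, e, h1, h2⟩ := hB
    exact ⟨ModularGroup.S * γ, C, by rw [mul_smul, e], h1, h2⟩
  | hT B hB =>
    obtain ⟨γ, C, e, h1, h2⟩ := hB
    exact ⟨ModularGroup.T * γ, C, by rw [mul_smul, e], h1, h2⟩

/-- `diag(t, 1) γ = γ' [a, b; 0, d]` -/
theorem hermite' {t : ℕ} (ht : 0 < t) (γ : SL(2, ℤ)) :
    ∃ (γ' : SL(2, ℤ)) (a d : ℕ) (b : ℤ) (ha : 0 < a) (hd : 0 < d), a * d = t ∧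
      tri t 0 1 ht one_pos * (SpecialLinearGroup.mapGL ℝ γ) =
        SpecialLinearGroup.mapGL ℝ γ' * tri a b d ha hd := by
  have hdet : (!![(t : ℤ), 0; 0, 1] * (γ : Matrix (Fin 2) (Fin 2) ℤ)).det = t := by
    rw [det_mul, det_fin_two_of]
    have := γ.2
    rw [this]
    ring
  obtain ⟨γ', B, e, h1, h2⟩ := hermite (m := t) (by exact_mod_cast ht) ⟨_, hdet⟩
  have hB := B.2
  rw [det_fin_two, h1, mul_zero, sub_zero] at hB
  have h3 : 0 < B.1 1 1 := by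
    have h4 : 0 < B.1 0 0 * B.1 1 1 := by rw [hB]; exact_mod_cast ht
    exact (pos_iff_pos_of_mul_pos h4).1 h2
  obtain ⟨a, ha⟩ := Int.eq_ofNat_of_zero_le h2.le
  obtain ⟨d, hd⟩ := Int.eq_ofNat_of_zero_le h3.le
  have ha' : 0 < a := by rw [ha] at h2; exact_mod_cast h2
  have hd' : 0 < d := by rw [hd] at h3; exact_mod_cast h3
  refine ⟨γ', a, d, B.1 0 1, ha', hd', ?_, ?_⟩
  · rw [ha, hd] at hB
    exact_mod_cast hB
  · have e2 : !![(t : ℤ), 0; 0, 1] * (γ : Matrix (Fin 2) (Fin 2) ℤ) =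
        (γ' : Matrix (Fin 2) (Fin 2) ℤ) * B.1 := by
      have := congrArg Subtype.val e
      rw [FixedDetMatrices.smul_coe] at this
      exact this
    have e3 : B.1 = !![(a : ℤ), B.1 0 1; 0, (d : ℤ)] := by
      ext i j
      fin_cases i <;> fin_cases j
      · exact ha
      · rfl
      · exact h1
      · exact hd
    apply Units.ext
    rw [Units.val_mul, Units.val_mul, tri_coe, tri_coe]
    have e4 := congrArg (fun M : Matrix (Fin 2) (Fin 2) ℤ => M.map (Int.castRingHom ℝ)) e2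
    simp only [Matrix.map_mul] at e4
    rw [e3] at e4
    have e5 : (!![(t : ℤ), 0; 0, 1]).map (Int.castRingHom ℝ) = !![(t : ℝ), ((0 : ℤ) : ℝ); 0, ((1 : ℕ) : ℝ)] := by
      ext i j
      fin_cases i <;> fin_cases j <;> simp
    have e6 : (!![(a : ℤ), B.1 0 1; 0, (d : ℤ)]).map (Int.castRingHom ℝ) =
        !![(a : ℝ), ((B.1 0 1 : ℤ) : ℝ); 0, (d : ℝ)] := by
      ext i j
      fin_cases i <;> fin_cases j <;> simp
    rw [e5, e6] at e4
    exact e4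

/-- `F | diag(t,1)` -/
theorem Cusps.dil (hO : Good O) {k : ℤ} {F : ℍ → ℂ} (hF : Cusps O k F) {t : ℕ} (ht : 0 < t) :
    Cusps O k (F ∣[k] tri t 0 1 ht one_pos) := fun γ => by
  obtain ⟨γ', a, d, b, ha, hd, -, e⟩ := hermite' ht γ
  rw [ModularForm.SL_slash, ← SlashAction.slash_mul]
  have e' : tri t 0 1 ht one_pos * (γ : GL (Fin 2) ℝ) = (γ' : GL (Fin 2) ℝ) * tri a b d ha hd := e
  rw [e', SlashAction.slash_mul]
  exact (hF γ').tri hO a b d ha hd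

end Vale.Agent.P022.H903
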