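import Vale.Agent.P022.H903.Cusps
import Mathlib.NumberTheory.ModularForms.EisensteinSeries.E2.Transform
import Mathlib.NumberTheory.ModularForms.EisensteinSeries.E2.Summable

/-!
# The weight four form `(16 E_4(2 t z) - E_4(t z)) / 15`
-/

open scoped ModularForm MatrixGroups Manifold Topology
open UpperHalfPlane Filter Matrix CongruenceSubgroup EisensteinSeries

noncomputable section

namespace Vale.Agent.P022.H903

variable {O : Subring ℂ} {h : ℕ}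

/-- `E_4` as a function -/
def E4 : ℍ → ℂ := (ModularForm.E₄ : ModularForm 𝒮ℒ 4)

theorem E4_slash (γ : SL(2, ℤ)) : E4 ∣[(4 : ℤ)] γ = E4 := by
  have := SlashInvariantFormClass.slash_action_eq ModularForm.E₄ (γ : GL (Fin 2) ℝ)
    (by exact ⟨γ, rfl⟩)
  exact this

/-- `(E_4 - 1) / 240` -/
def Y4 : ℍ → ℂ := (240 : ℂ)⁻¹ • (E4 - 1)

theorem E4_eq : E4 = 1 + (240 : ℂ) • Y4 := by
  rw [Y4, smul_smul, mul_inv_cancel₀ (by norm_num), one_smul]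
  ring

theorem E4_hasSum (τ : ℍ) : HasSum (fun n : ℕ => (if n = 0 then (1 : ℂ) else
    240 * (ArithmeticFunction.sigma 3 n : ℂ)) * Function.Periodic.qParam ((1 : ℕ) : ℝ) τ ^ n)
      (E4 τ) := by
  have h1 := ModularForm.hasSum_qExpansion (F := ModularForm 𝒮ℒ 4) ModularForm.E₄
    (h := 1) one_pos one_mem_strictPeriods_SL τ
  refine hs_congr h1 fun n => ?_
  have h2 := EisensteinSeries.E_qExpansion_coeff (k := 4) (by norm_num) (by decide) n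
  have h3 : (UpperHalfPlane.qExpansion 1 (ModularForm.E₄ : ModularForm 𝒮ℒ 4)).coeff n =
    if n = 0 then (1 : ℂ) else 240 * (ArithmeticFunction.sigma 3 n : ℂ) := by
    refine h2.trans ?_
    split_ifs
    · rfl
    · rw [show bernoulli 4 = -1/30 by decide +kernel]
      norm_num
  rw [← h3]
  simp

theorem Y4_QI : QI O 1 Y4 := by
  refine ⟨fun n => (ArithmeticFunction.sigma 3 n : ℂ), fun n => natCast_mem O _, fun τ => ?_⟩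
  have h1 := (E4_hasSum τ).sub (hasSum_ite_eq (0 : ℕ) (1 : ℂ))
  have h2 := h1.mul_left ((240 : ℂ)⁻¹)
  have e : Y4 τ = (240 : ℂ)⁻¹ * (E4 τ - 1) := by simp [Y4]
  rw [e]
  refine hs_congr h2 fun n => ?_
  by_cases hn : n = 0
  · subst hn; simp
  · rw [if_neg hn, if_neg hn]
    ring

theorem E4_QI : QI O 1 E4 := by
  rw [E4_eq]
  exact QI.one.add (Y4_QI.smul (by exact_mod_cast natCast_mem O 240))

theorem E4_cusps : Cusps O 4 E4 := fun γ => by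
  rw [E4_slash]
  exact E4_QI.toBd one_pos

/-- the form `(16 E_4(2 t z) - E_4(t z)) / 15` -/
def G4 (t : ℕ) (ht : 0 < t) : ℍ → ℂ :=
  (15 : ℂ)⁻¹ • ((16 * ((2 * t : ℕ) : ℂ)⁻¹ ^ 3) • (E4 ∣[(4 : ℤ)] tri (2 * t) 0 1 (by omega) one_pos)
    - (((t : ℕ) : ℂ)⁻¹ ^ 3) • (E4 ∣[(4 : ℤ)] tri t 0 1 ht one_pos))

theorem G4_cusps (hO : Good O) (t : ℕ) (ht : 0 < t) : Cusps O 4 (G4 t ht) :=
  (((E4_cusps.dil hO _).smul hO _).sub hO ((E4_cusps.dil hO ht).smul hO _)).smul hO _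

theorem mat_ext {a b c d a' b' c' d' : ℝ} (h1 : a = a') (h2 : b = b') (h3 : c = c')
    (h4 : d = d') : !![a, b; c, d] = !![a', b'; c', d'] := by
  rw [h1, h2, h3, h4]

theorem tri_mul_eq {t : ℕ} (ht : 0 < t) {a d : ℕ} {b : ℤ} (ha : 0 < a) (hd : 0 < d)
    (γ γ' : SL(2, ℤ)) (h00 : t * γ 0 0 = γ' 0 0 * a) (h01 : t * γ 0 1 = γ' 0 0 * b + γ' 0 1 * d)
    (h10 : γ 1 0 = γ' 1 0 * a) (h11 : γ 1 1 = γ' 1 0 * b + γ' 1 1 * d) :
    tri t 0 1 ht one_pos * (γ : GL (Fin 2) ℝ) = (γ' : GL (Fin 2) ℝ) * tri a b d ha hd := by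
  apply Units.ext
  rw [Units.val_mul, Units.val_mul, tri_coe, tri_coe]
  have e1 : ((γ : GL (Fin 2) ℝ) : Matrix (Fin 2) (Fin 2) ℝ) =
      !![((γ 0 0 : ℤ) : ℝ), ((γ 0 1 : ℤ) : ℝ); ((γ 1 0 : ℤ) : ℝ), ((γ 1 1 : ℤ) : ℝ)] := by
    ext i j
    fin_cases i <;> fin_cases j <;> rfl
  have e2 : ((γ' : GL (Fin 2) ℝ) : Matrix (Fin 2) (Fin 2) ℝ) =
      !![((γ' 0 0 : ℤ) : ℝ), ((γ' 0 1 : ℤ) : ℝ); ((γ' 1 0 : ℤ) : ℝ), ((γ' 1 1 : ℤ) : ℝ)] := by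
    ext i j
    fin_cases i <;> fin_cases j <;> rfl
  rw [e1, e2, Matrix.mul_fin_two, Matrix.mul_fin_two]
  have h00' : ((t * γ 0 0 : ℤ) : ℝ) = ((γ' 0 0 * a : ℤ) : ℝ) := by rw [h00]
  have h01' : ((t * γ 0 1 : ℤ) : ℝ) = ((γ' 0 0 * b + γ' 0 1 * d : ℤ) : ℝ) := by rw [h01]
  have h10' : ((γ 1 0 : ℤ) : ℝ) = ((γ' 1 0 * a : ℤ) : ℝ) := by rw [h10]
  have h11' : ((γ 1 1 : ℤ) : ℝ) = ((γ' 1 0 * b + γ' 1 1 * d : ℤ) : ℝ) := by rw [h11]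
  push_cast at h00' h01' h10' h11' ⊢
  refine mat_ext ?_ ?_ ?_ ?_
  · linarith
  · linarith
  · linarith
  · linarith

theorem sl_det (γ : SL(2, ℤ)) : γ 0 0 * γ 1 1 - γ 0 1 * γ 1 0 = 1 := by
  have hdet := γ.2
  rw [det_fin_two] at hdet
  exact hdet

theorem exists_sl (a b c d : ℤ) (h : a * d - b * c = 1) :
    ∃ γ : SL(2, ℤ), γ 0 0 = a ∧ γ 0 1 = b ∧ γ 1 0 = c ∧ γ 1 1 = d :=
  ⟨⟨!![a, b; c, d], by rw [det_fin_two_of]; exact h⟩, rfl, rfl, rfl, rfl⟩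

theorem dil_slash {t : ℕ} (ht : 0 < t) {γ : SL(2, ℤ)} (hγ : γ ∈ Gamma0 t) :
    ∃ γ' : SL(2, ℤ), tri t 0 1 ht one_pos * (γ : GL (Fin 2) ℝ) =
      (γ' : GL (Fin 2) ℝ) * tri t 0 1 ht one_pos := by
  rw [Gamma0_mem, ZMod.intCast_zmod_eq_zero_iff_dvd] at hγ
  obtain ⟨c, hc⟩ := hγ
  have hdet := sl_det γ
  obtain ⟨γ', h1, h2, h3, h4⟩ := exists_sl (γ 0 0) (t * γ 0 1) c (γ 1 1)
    (by linear_combination hdet + γ 0 1 * hc)
  refine ⟨γ', tri_mul_eq ht ht one_pos γ γ' ?_ ?_ ?_ ?_⟩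
  · rw [h1]; ring
  · rw [h1, h2]; push_cast; ring
  · rw [h3, hc]; ring
  · rw [h3, h4]; push_cast; ring

theorem E4_dil_slash {t : ℕ} (ht : 0 < t) {γ : SL(2, ℤ)} (hγ : γ ∈ Gamma0 t) :
    (E4 ∣[(4 : ℤ)] tri t 0 1 ht one_pos) ∣[(4 : ℤ)] γ = E4 ∣[(4 : ℤ)] tri t 0 1 ht one_pos := by
  obtain ⟨γ', e⟩ := dil_slash ht hγ
  rw [ModularForm.SL_slash, ← SlashAction.slash_mul, e, SlashAction.slash_mul]
  congr 1
  exact E4_slash γ'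

/-- the other cusps -/
theorem E4_dil_slash' {t : ℕ} (ht : 0 < t) (ht' : 0 < 2 * t) {γ : SL(2, ℤ)} (hγ : γ ∈ Gamma0 t)
    (hγ' : γ ∉ Gamma0 (2 * t)) :
    ∃ b : ℤ, (E4 ∣[(4 : ℤ)] tri (2 * t) 0 1 ht' one_pos) ∣[(4 : ℤ)] γ =
      E4 ∣[(4 : ℤ)] tri t b 2 ht two_pos := by
  rw [Gamma0_mem, ZMod.intCast_zmod_eq_zero_iff_dvd] at hγ hγ'
  obtain ⟨c, hc⟩ := hγ
  have hodd : c % 2 = 1 := by
    by_contra hcon
    apply hγ'
    have : c % 2 = 0 := by omega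
    obtain ⟨c', hc'⟩ := Int.dvd_of_emod_eq_zero this
    exact ⟨c', by rw [hc, hc']; push_cast; ring⟩
  have hdet := sl_det γ
  set b : ℤ := γ 1 1 % 2 with hb
  have h2 : (2 : ℤ) ∣ γ 1 1 - c * b := by
    obtain ⟨c', hc'⟩ : ∃ c', c = 2 * c' + 1 := ⟨c / 2, by omega⟩
    have : γ 1 1 - c * b = (γ 1 1 - b) - 2 * (c' * b) := by rw [hc']; ring
    rw [this]
    refine dvd_sub ?_ (dvd_mul_right _ _)
    rw [hb]
    exact Int.dvd_self_sub_emod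
  obtain ⟨e, he⟩ := h2
  obtain ⟨γ', h1, h2, h3, h4⟩ := exists_sl (2 * γ 0 0) (t * γ 0 1 - γ 0 0 * b) c e
    (by linear_combination hdet + γ 0 1 * hc - γ 0 0 * he)
  have e1 : tri (2 * t) 0 1 ht' one_pos * (γ : GL (Fin 2) ℝ) =
      (γ' : GL (Fin 2) ℝ) * tri t b 2 ht two_pos := by
    refine tri_mul_eq ht' ht two_pos γ γ' ?_ ?_ ?_ ?_
    · rw [h1]; push_cast; ring
    · rw [h1, h2]; push_cast; ring
    · rw [h3, hc]; ring
    · rw [h3, h4]; push_cast; linarith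
  refine ⟨b, ?_⟩
  rw [ModularForm.SL_slash, ← SlashAction.slash_mul, e1, SlashAction.slash_mul]
  congr 1
  exact E4_slash _

/-- pointwise value of `F | [a, b; 0, d]` as a scalar times a function with integral expansion -/
theorem tri_one_add (hO : Good O) {k : ℤ} {F Y : ℍ → ℂ} {c : ℂ} (hF : F = 1 + c • Y)
    (hY : QI O 1 Y) (a : ℕ) (b : ℤ) (d : ℕ) (ha : 0 < a) (hd : 0 < d) :
    ∃ Z : ℍ → ℂ, QI O d Z ∧ F ∣[k] tri a b d ha hd =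
      ((a * d : ℂ) ^ (k - 1) * (d : ℂ) ^ (-k)) • (1 + c • Z) := by
  set u : ℂ := ((a * d : ℂ) ^ (k - 1) * (d : ℂ) ^ (-k)) with hu
  have hu0 : u ≠ 0 := by
    have h1 : (a : ℂ) ≠ 0 := by exact_mod_cast ha.ne'
    have h2 : (d : ℂ) ≠ 0 := by exact_mod_cast hd.ne'
    exact mul_ne_zero (zpow_ne_zero _ (mul_ne_zero h1 h2)) (zpow_ne_zero _ h2)
  refine ⟨u⁻¹ • (Y ∣[k] tri a b d ha hd), ?_, ?_⟩
  · have := QI.tri (k := k) hO one_pos hY a b d ha hd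
    rwa [mul_one] at this
  · ext τ
    obtain ⟨τ', e1, e2⟩ := slash_tri k F a b d ha hd τ
    have e3 := slash_tri' k Y a b d ha hd τ τ' e1
    rw [e2, hF]
    simp only [Pi.add_apply, Pi.one_apply, Pi.smul_apply, smul_eq_mul]
    rw [e3, ← hu]
    field_simp

theorem cst4 (a d : ℕ) (hd : 0 < d) :
    ((a * d : ℂ) ^ ((4 : ℤ) - 1) * (d : ℂ) ^ (-(4 : ℤ))) = (a : ℂ) ^ 3 / d := by
  have h2 : (d : ℂ) ≠ 0 := by exact_mod_cast hd.ne'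
  rw [show (4 : ℤ) - 1 = ((3 : ℕ) : ℤ) by norm_num, show -(4 : ℤ) = -((4 : ℕ) : ℤ) by norm_num,
    zpow_natCast, _root_.zpow_neg, zpow_natCast]
  field_simp

/-- `G4 = 1 + 16 X` with `X` integral -/
theorem G4_one (hO : Good O) (t : ℕ) (ht : 0 < t) : QI O 1 ((16 : ℂ)⁻¹ • (G4 t ht - 1)) := by
  obtain ⟨Z1, h1, e1⟩ := tri_one_add (k := 4) hO E4_eq Y4_QI (2 * t) 0 1 (by omega) one_pos
  obtain ⟨Z2, h2, e2⟩ := tri_one_add (k := 4) hO E4_eq Y4_QI t 0 1 ht one_pos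
  have htc : (t : ℂ) ≠ 0 := by exact_mod_cast ht.ne'
  have e : (16 : ℂ)⁻¹ • (G4 t ht - 1) = (16 : ℂ) • Z1 - Z2 := by
    rw [G4, e1, e2, cst4 _ _ one_pos, cst4 _ _ one_pos]
    ext τ
    simp only [Pi.sub_apply, Pi.add_apply, Pi.smul_apply, smul_eq_mul, Pi.one_apply]
    generalize Z1 τ = z1
    generalize Z2 τ = z2
    push_cast
    field_simp
    ring
  rw [e]
  exact (h1.smul (by exact_mod_cast natCast_mem O 16)).sub h2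

theorem G4_slash (t : ℕ) (ht : 0 < t) {γ : SL(2, ℤ)} (hγ : γ ∈ Gamma0 (2 * t)) :
    G4 t ht ∣[(4 : ℤ)] γ = G4 t ht := by
  have hγ' : γ ∈ Gamma0 t := by
    rw [Gamma0_mem, ZMod.intCast_zmod_eq_zero_iff_dvd] at hγ ⊢
    exact dvd_trans ⟨2, by push_cast; ring⟩ hγ
  rw [G4, ModularForm.SL_smul_slash, sub_eq_add_neg, SlashAction.add_slash, SlashAction.neg_slash,
    ModularForm.SL_smul_slash, ModularForm.SL_smul_slash, E4_dil_slash _ hγ, E4_dil_slash _ hγ']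

/-- `G4` at the other cusps of `Gamma0 (2 t)` above the class of infinity of `Gamma0 t` -/
theorem G4_slash' (hO : Good O) (t : ℕ) (ht : 0 < t) {γ : SL(2, ℤ)} (hγ : γ ∈ Gamma0 t)
    (hγ' : γ ∉ Gamma0 (2 * t)) : QI O 2 ((16 : ℂ)⁻¹ • (G4 t ht ∣[(4 : ℤ)] γ)) := by
  obtain ⟨b, eb⟩ := E4_dil_slash' ht (by omega) hγ hγ'
  obtain ⟨Z1, h1, e1⟩ := tri_one_add (k := 4) hO E4_eq Y4_QI t b 2 ht two_pos
  obtain ⟨Z2, h2, e2⟩ := tri_one_add (k := 4) hO E4_eq Y4_QI t 0 1 ht one_pos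
  have htc : (t : ℂ) ≠ 0 := by exact_mod_cast ht.ne'
  have s2 := E4_dil_slash ht hγ
  have e : (16 : ℂ)⁻¹ • (G4 t ht ∣[(4 : ℤ)] γ) = Z1 - Z2 := by
    rw [G4, ModularForm.SL_smul_slash, sub_eq_add_neg, SlashAction.add_slash,
      SlashAction.neg_slash, ModularForm.SL_smul_slash, ModularForm.SL_smul_slash, eb,
      s2, e1, e2, cst4 _ _ one_pos, cst4 _ _ two_pos]
    ext τ
    simp only [Pi.sub_apply, Pi.add_apply, Pi.smul_apply, smul_eq_mul, Pi.one_apply, Pi.neg_apply]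
    generalize Z1 τ = z1
    generalize Z2 τ = z2
    push_cast
    field_simp
    ring
  rw [e]
  have h3 := h2.mulPeriod' (m := 2) two_pos
  rw [one_mul] at h3
  exact h1.sub h3

end Vale.Agent.P022.H903
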