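import Vale.Agent.P022.H903.Theta

/-!
# Iterating the theta operator
-/

open scoped ModularForm MatrixGroups Manifold Topology
open UpperHalfPlane Filter Matrix CongruenceSubgroup EisensteinSeries Derivative

noncomputable section

namespace Vale.Agent.P022.H903

variable {O : Subring ℂ} {h : ℕ}

/-- invariance under `τ ↦ τ + 1` -/
def Tinv (F : ℍ → ℂ) : Prop := ∀ τ τ' : ℍ, (τ' : ℂ) = τ + 1 → F τ' = F τ

theorem QI.tinv {F : ℍ → ℂ} (hF : QI O 1 F) : Tinv F := by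
  obtain ⟨a, -, hs⟩ := hF
  intro τ τ' e
  refine (hs τ').unique (hs_congr (hs τ) fun n => ?_)
  have e1 : Function.Periodic.qParam ((1 : ℕ) : ℝ) (τ' : ℂ) =
      Function.Periodic.qParam ((1 : ℕ) : ℝ) (τ : ℂ) := by
    rw [Function.Periodic.qParam, Function.Periodic.qParam, Complex.exp_eq_exp_iff_exists_int]
    refine ⟨1, ?_⟩
    rw [e]
    push_cast
    ring
  rw [e1]

theorem Tinv.of_smul {c : ℂ} (hc : c ≠ 0) {F : ℍ → ℂ} (hF : Tinv (c • F)) : Tinv F := by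
  intro τ τ' e
  have := hF τ τ' e
  simpa [hc] using this

theorem Tinv.smul {F : ℍ → ℂ} (hF : Tinv F) (c : ℂ) : Tinv (c • F) := by
  intro τ τ' e
  simp [hF τ τ' e]

theorem Tinv.sub {F G : ℍ → ℂ} (hF : Tinv F) (hG : Tinv G) : Tinv (F - G) := by
  intro τ τ' e
  simp [hF τ τ' e, hG τ τ' e]

theorem Tinv.add {F G : ℍ → ℂ} (hF : Tinv F) (hG : Tinv G) : Tinv (F + G) := by
  intro τ τ' e
  simp [hF τ τ' e, hG τ τ' e]

theorem Tinv.mul {F G : ℍ → ℂ} (hF : Tinv F) (hG : Tinv G) : Tinv (F * G) := by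
  intro τ τ' e
  simp [hF τ τ' e, hG τ τ' e]

theorem Tinv.deriv {F : ℍ → ℂ} (hF : Bd O F) (hT : Tinv F) : Tinv (normalizedDerivOfComplex F) := by
  have hm : MDiff F := hF.mdiff
  obtain ⟨h, hh, s, hQ⟩ := hF
  have h1 : QI O 1 ((2 : ℂ) ^ s • F) := hQ.period_one hh (hT.smul _)
  have h2 := (h1.deriv one_pos).tinv
  rw [Nat.cast_one, one_smul, normalizedDerivOfComplex_smul _ _ hm] at h2
  exact h2.of_smul (pow_ne_zero s two_ne_zero)

/-- the translation matrix -/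
def Tm : SL(2, ℤ) := ModularGroup.T

theorem Tm_mem (n : ℕ) : Tm ∈ Gamma0 n := by
  rw [Gamma0_mem]
  simp [Tm, ModularGroup.T]

theorem chr_Tm {N : ℕ} (e : DirichletCharacter ℂ N) : chr e Tm = 1 := by
  rw [chr]
  simp [Tm, ModularGroup.T]

theorem slash_Tm (k : ℤ) (F : ℍ → ℂ) (τ τ' : ℍ) (e : (τ' : ℂ) = τ + 1) :
    (F ∣[k] Tm) τ = F τ' := by
  have e1 : Tm • τ = τ' := by
    apply UpperHalfPlane.ext
    rw [e]
    have := UpperHalfPlane.modular_T_smul τ
    rw [Tm, this]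
    simp [add_comm]
  rw [ModularForm.SL_slash_apply, e1]
  have e2 : denom (Tm : GL (Fin 2) ℝ) τ = 1 := by
    have : denom (Tm : GL (Fin 2) ℝ) τ = ((Tm 1 0 : ℤ) : ℂ) * τ + ((Tm 1 1 : ℤ) : ℂ) := rfl
    rw [this]
    simp [Tm, ModularGroup.T]
  rw [e2]
  simp

theorem tinv_of_slash {k : ℤ} {F : ℍ → ℂ} (hF : F ∣[k] Tm = F) : Tinv F := by
  intro τ τ' e
  rw [← slash_Tm k F τ τ' e, hF]

theorem theta_iter (hO : Good O) {N J : ℕ} {k : ℤ} {χ : SL(2, ℤ) → ℂ} (hχ : χ Tm = 1) {f : ℍ → ℂ}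
    (hf : ∀ γ ∈ Gamma0 (N * 2 ^ J), f ∣[k] γ = χ γ • f) (hc : Cusps O k f) (j : ℕ) : ∀ (m : ℕ),
    ∃ (J' : ℕ) (F : ℍ → ℂ), J ≤ J' ∧
      (∀ γ ∈ Gamma0 (N * 2 ^ J'), F ∣[k + ((2 * j : ℕ) : ℤ)] γ = χ γ • F) ∧
      Cusps O (k + ((2 * j : ℕ) : ℤ)) F ∧ T1 O m (F - normalizedDerivOfComplex^[j] f) := by
  induction j with
  | zero =>
    intro m
    refine ⟨J, f, le_rfl, ?_, ?_, ?_⟩
    · intro γ hγ
      rw [mul_zero, Nat.cast_zero, add_zero]
      exact hf γ hγ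
    · rw [mul_zero, Nat.cast_zero, add_zero]
      exact hc
    · rw [Function.iterate_zero, id_eq, sub_self]
      exact ⟨0, QI.zero, by simp⟩
  | succ j ih =>
    intro m
    obtain ⟨J1, H, hJ1, h1, h2, h3⟩ := ih m
    obtain ⟨J2, F, hJ2, h4, h5, h6⟩ := theta_step hO h1 h2 m
    have ek : k + ((2 * (j + 1) : ℕ) : ℤ) = k + ((2 * j : ℕ) : ℤ) + 2 := by
      push_cast
      ring
    refine ⟨J2, F, hJ1.trans hJ2, ?_, ?_, ?_⟩
    · intro γ hγ
      rw [ek]
      exact h4 γ hγ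
    · rw [ek]
      exact h5
    · have hHT : Tinv H := tinv_of_slash (k := k + ((2 * j : ℕ) : ℤ)) (by
        rw [h1 _ (Tm_mem _), hχ, one_smul])
      have hFT : Tinv F := tinv_of_slash (k := k + ((2 * j : ℕ) : ℤ) + 2) (by
        rw [h4 _ (Tm_mem _), hχ, one_smul])
      have h7 : T1 O m (F - normalizedDerivOfComplex H) :=
        h6.toT1 (hFT.sub (Tinv.deriv h2.toBd hHT))
      have h8 := h3.deriv
      have hHm : MDiff H := h2.toBd.mdiff
      have hDm : MDiff (normalizedDerivOfComplex^[j] f) := by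
        have e : normalizedDerivOfComplex^[j] f = H - (H - normalizedDerivOfComplex^[j] f) := by
          ring
        rw [e]
        exact hHm.sub h3.toTn.toBd.mdiff
      rw [normalizedDerivOfComplex_sub _ _ hHm hDm] at h8
      rw [Function.iterate_succ_apply']
      have e : F - normalizedDerivOfComplex (normalizedDerivOfComplex^[j] f) =
          (F - normalizedDerivOfComplex H) + (normalizedDerivOfComplex H -
            normalizedDerivOfComplex (normalizedDerivOfComplex^[j] f)) := by ring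
      rw [e]
      exact h7.add h8

end Vale.Agent.P022.H903
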