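import Vale.Agent.P022.H903.Cusps

/-!
# The trace with a character
-/

open scoped ModularForm MatrixGroups Manifold Topology
open UpperHalfPlane Filter Matrix CongruenceSubgroup

noncomputable section

namespace Vale.Agent.P022.H903

/-- Trace from `Γ'` to `Γ''` with a character: the sum of `χ(g)⁻¹ f | g` over coset
representatives. -/
theorem trace_exists (Γ' Γ'' : Subgroup SL(2, ℤ)) [Γ'.FiniteIndex]
    (χ : SL(2, ℤ) → ℂ) (hmul : ∀ g ∈ Γ'', ∀ g' ∈ Γ'', χ (g * g') = χ g * χ g') (h1 : χ 1 = 1)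
    (hle : Γ' ≤ Γ'') :
    ∃ (ι : Type) (_ : Fintype ι) (g : ι → SL(2, ℤ)),
      (∀ i, g i ∈ Γ'' ∧ g i ∉ Γ') ∧
      ∀ (k : ℤ) (f : ℍ → ℂ), (∀ γ ∈ Γ', f ∣[k] γ = χ γ • f) →
      ∀ δ ∈ Γ'', (f + ∑ i, χ (g i)⁻¹ • (f ∣[k] g i)) ∣[k] δ =
        χ δ • (f + ∑ i, χ (g i)⁻¹ • (f ∣[k] g i)) := by
  classical
  have hinv : ∀ g ∈ Γ'', χ g⁻¹ * χ g = 1 := fun g hg => by
    rw [← hmul _ (inv_mem hg) _ hg, inv_mul_cancel, h1]
  set Q := Γ'' ⧸ (Γ'.subgroupOf Γ'') with hQ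
  have : (Γ'.subgroupOf Γ'').FiniteIndex := inferInstance
  have : Finite Q := Subgroup.finite_quotient_of_finiteIndex
  let : Fintype Q := Fintype.ofFinite Q
  refine ⟨{q : Q // q ≠ QuotientGroup.mk (1 : Γ'')}, inferInstance,
    fun q => ((q.1.out).1)⁻¹, fun q => ⟨inv_mem (q.1.out).2, fun hq => ?_⟩, ?_⟩
  · apply q.2
    rw [← QuotientGroup.out_eq' q.1, QuotientGroup.eq, mul_one]
    exact hq
  intro k f hf
  set T : Γ'' → ℍ → ℂ := fun g => χ g.1 • (f ∣[k] (g.1)⁻¹) with hT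
  have hTconst : ∀ g g' : Γ'', (QuotientGroup.mk g : Q) = QuotientGroup.mk g' → T g = T g' := by
    intro g g' e
    rw [QuotientGroup.eq] at e
    have e1 : (g.1)⁻¹ * g'.1 ∈ Γ' := e
    set c := (g.1)⁻¹ * g'.1 with hc
    have e2 : g'.1 = g.1 * c := by rw [hc]; group
    have e3 : c ∈ Γ'' := hle e1
    show χ g.1 • (f ∣[k] (g.1)⁻¹) = χ g'.1 • (f ∣[k] (g'.1)⁻¹)
    rw [e2, hmul _ g.2 _ e3, _root_.mul_inv_rev, SlashAction.slash_mul, hf _ (inv_mem e1),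
      ModularForm.SL_smul_slash, smul_smul, mul_assoc, mul_comm (χ c), hinv c e3, mul_one]
  have hFinv : ∀ δ ∈ Γ'', (∑ q : Q, T q.out) ∣[k] δ = χ δ • (∑ q : Q, T q.out) := by
    intro δ hδ
    rw [SlashAction.sum_slash, Finset.smul_sum]
    have hterm : ∀ q : Q, (T q.out) ∣[k] δ = χ δ • T ((⟨δ, hδ⟩ : Γ'')⁻¹ * q.out) := by
      intro q
      show (χ (q.out).1 • (f ∣[k] ((q.out).1)⁻¹)) ∣[k] δ =
        χ δ • (χ (δ⁻¹ * (q.out).1) • (f ∣[k] (δ⁻¹ * (q.out).1)⁻¹))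
      rw [ModularForm.SL_smul_slash, ← SlashAction.slash_mul, smul_smul,
        hmul _ (inv_mem hδ) _ (q.out).2, ← mul_assoc, mul_comm (χ δ), hinv δ hδ, one_mul,
        _root_.mul_inv_rev, inv_inv]
    rw [Finset.sum_congr rfl fun q _ => hterm q]
    have hperm : ∀ q : Q, T ((⟨δ, hδ⟩ : Γ'')⁻¹ * q.out) = T ((⟨δ, hδ⟩ : Γ'')⁻¹ • q).out := by
      intro q
      apply hTconst
      rw [QuotientGroup.out_eq']
      conv_rhs => rw [← QuotientGroup.out_eq' q]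
      rfl
    rw [Finset.sum_congr rfl fun q _ => by rw [hperm q]]
    exact Equiv.sum_comp (MulAction.toPerm (⟨δ, hδ⟩ : Γ'')⁻¹) (fun q : Q => χ δ • T q.out)
  have h1' : T (QuotientGroup.mk (1 : Γ'') : Q).out = f := by
    have := hTconst (QuotientGroup.mk (1 : Γ'') : Q).out 1 (by rw [QuotientGroup.out_eq'])
    rw [this]
    show χ 1 • (f ∣[k] (1 : SL(2, ℤ))⁻¹) = f
    rw [h1, inv_one, SlashAction.slash_one, one_smul]
  have key : (∑ q : Q, T q.out) = f + ∑ i : {q : Q // q ≠ QuotientGroup.mk (1 : Γ'')},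
      χ (((i.1.out).1)⁻¹)⁻¹ • (f ∣[k] ((i.1.out).1)⁻¹) := by
    rw [← Finset.add_sum_erase _ _ (Finset.mem_univ (QuotientGroup.mk (1 : Γ'') : Q)), h1']
    congr 1
    rw [← Finset.sum_subtype (Finset.univ.erase (QuotientGroup.mk (1 : Γ'') : Q))
      (p := fun q => q ≠ QuotientGroup.mk (1 : Γ'')) (by intro x; simp)
      (fun q => χ (((q.out).1)⁻¹)⁻¹ • (f ∣[k] ((q.out).1)⁻¹))]
    refine Finset.sum_congr rfl fun q _ => ?_
    rw [inv_inv]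
  intro δ hδ
  have := hFinv δ hδ
  rw [key] at this
  exact this

end Vale.Agent.P022.H903
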