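import Vale.Agent.P022.H903.Eis
import Vale.Agent.P022.H903.Trace

/-!
# Lowering the level at 2
-/

open scoped ModularForm MatrixGroups Manifold Topology
open UpperHalfPlane Filter Matrix CongruenceSubgroup

noncomputable section

namespace Vale.Agent.P022.H903

variable {O : Subring ℂ} {h : ℕ}

/-- `F` has an expansion with coefficients in `2^m O`. -/
def Tn (O : Subring ℂ) (m : ℕ) (F : ℍ → ℂ) : Prop :=
  ∃ h : ℕ, 0 < h ∧ ∃ Z : ℍ → ℂ, QI O h Z ∧ F = (2 : ℂ) ^ m • Z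

theorem Tn.mono {m n : ℕ} (hmn : m ≤ n) {F : ℍ → ℂ} (hF : Tn O n F) : Tn O m F := by
  obtain ⟨h, hh, Z, hZ, e⟩ := hF
  refine ⟨h, hh, (2 : ℂ) ^ (n - m) • Z, hZ.smul (pow_mem (two_mem O) _), ?_⟩
  rw [smul_smul, ← pow_add, Nat.add_sub_cancel' hmn]
  exact e

theorem Tn.add {m : ℕ} {F G : ℍ → ℂ} (hF : Tn O m F) (hG : Tn O m G) : Tn O m (F + G) := by
  obtain ⟨h, hh, Z, hZ, e⟩ := hF
  obtain ⟨h', hh', Z', hZ', e'⟩ := hG
  refine ⟨h * h', Nat.mul_pos hh hh', Z + Z', (hZ.mulPeriod' hh').add (hZ'.mulPeriod hh), ?_⟩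
  rw [smul_add, ← e, ← e']

theorem Tn.zero (m : ℕ) : Tn O m 0 := ⟨1, one_pos, 0, QI.zero, by simp⟩

theorem Tn.neg {m : ℕ} {F : ℍ → ℂ} (hF : Tn O m F) : Tn O m (-F) := by
  obtain ⟨h, hh, Z, hZ, e⟩ := hF
  exact ⟨h, hh, -Z, hZ.neg, by rw [e, smul_neg]⟩

theorem Tn.sub {m : ℕ} {F G : ℍ → ℂ} (hF : Tn O m F) (hG : Tn O m G) : Tn O m (F - G) := by
  rw [sub_eq_add_neg]
  exact hF.add hG.neg

theorem Tn.sum {m : ℕ} {ι : Type*} {s : Finset ι} {F : ι → ℍ → ℂ} (hF : ∀ i ∈ s, Tn O m (F i)) :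
    Tn O m (∑ i ∈ s, F i) := by
  classical
  induction s using Finset.induction_on with
  | empty => simpa using Tn.zero m
  | insert i s hi ih =>
    rw [Finset.sum_insert hi]
    exact (hF i (Finset.mem_insert_self _ _)).add
      (ih fun j hj => hF j (Finset.mem_insert_of_mem hj))

theorem Tn.mul {m n : ℕ} {F G : ℍ → ℂ} (hF : Tn O m F) (hG : Tn O n G) :
    Tn O (m + n) (F * G) := by
  obtain ⟨h, hh, Z, hZ, e⟩ := hF
  obtain ⟨h', hh', Z', hZ', e'⟩ := hG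
  refine ⟨h * h', Nat.mul_pos hh hh', Z * Z', (hZ.mulPeriod' hh').mul (hZ'.mulPeriod hh), ?_⟩
  rw [e, e', smul_mul_smul_comm, ← pow_add]

theorem Tn.pow {m : ℕ} {F : ℍ → ℂ} (hF : Tn O m F) (n : ℕ) : Tn O (n * m) (F ^ n) := by
  induction n with
  | zero => rw [pow_zero]; exact ⟨1, one_pos, 1, QI.one, by simp⟩
  | succ n ih =>
    rw [pow_succ, Nat.succ_mul]
    exact ih.mul hF

/-- a scalar times a small function -/
theorem Tn.smul (hO : Good O) (c : ℂ) : ∃ s : ℕ, ∀ (m : ℕ) (F : ℍ → ℂ), Tn O (m + s) F →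
    Tn O m (c • F) := by
  obtain ⟨s, hs⟩ := hO.half c
  refine ⟨s, fun m F ⟨h, hh, Z, hZ, e⟩ => ⟨h, hh, ((2 : ℂ) ^ s * c) • Z, hZ.smul hs, ?_⟩⟩
  rw [e, smul_smul, smul_smul]
  congr 1
  ring

theorem Tn.smul' {c : ℂ} (hc : c ∈ O) {m : ℕ} {F : ℍ → ℂ} (hF : Tn O m F) : Tn O m (c • F) := by
  obtain ⟨h, hh, Z, hZ, e⟩ := hF
  refine ⟨h, hh, c • Z, hZ.smul hc, ?_⟩
  rw [e, smul_comm]

/-- a bounded function times a small one -/
theorem Bd.mul_tn {F : ℍ → ℂ} (hF : Bd O F) : ∃ s : ℕ, ∀ (m : ℕ) (G : ℍ → ℂ), Tn O (m + s) G →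
    Tn O m (F * G) := by
  obtain ⟨h, hh, s, hs⟩ := hF
  refine ⟨s, fun m G ⟨h', hh', Z, hZ, e⟩ => ⟨h * h', Nat.mul_pos hh hh',
    ((2 : ℂ) ^ s • F) * Z, (hs.mulPeriod' hh').mul (hZ.mulPeriod hh), ?_⟩⟩
  rw [e, mul_smul_comm, smul_mul_assoc, smul_smul, pow_add]

theorem Tn.toBd {m : ℕ} {F : ℍ → ℂ} (hF : Tn O m F) : Bd O F := by
  obtain ⟨h, hh, Z, hZ, e⟩ := hF
  refine ⟨h, hh, 0, ?_⟩
  rw [pow_zero, one_smul, e]
  exact hZ.smul (pow_mem (two_mem O) _)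

theorem pow_slash (k : ℤ) (F : ℍ → ℂ) (γ : SL(2, ℤ)) (n : ℕ) :
    (F ^ n) ∣[(n * k : ℤ)] γ = (F ∣[k] γ) ^ n := by
  induction n with
  | zero =>
    simp only [Nat.cast_zero, zero_mul, pow_zero]
    exact ModularForm.is_invariant_one γ
  | succ n ih =>
    rw [pow_succ, pow_succ, ← ih, ← ModularForm.mul_slash_SL2]
    congr 1
    push_cast
    ring

theorem one_add_pow {F : ℍ → ℂ} {a : ℕ} (ha : 1 ≤ a) (hF : Tn O a (F - 1)) (s : ℕ) :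
    Tn O (a + s) (F ^ 2 ^ s - 1) := by
  induction s with
  | zero => simpa using hF
  | succ s ih =>
    have e : F ^ 2 ^ (s + 1) - 1 = (F ^ 2 ^ s - 1) * (F ^ 2 ^ s - 1) + (2 : ℂ) • (F ^ 2 ^ s - 1) := by
      rw [pow_succ 2, pow_mul, two_smul]
      ring
    rw [e]
    refine Tn.add ((ih.mul ih).mono (by omega)) ?_
    obtain ⟨h, hh, Z, hZ, e'⟩ := ih
    refine ⟨h, hh, Z, hZ, ?_⟩
    rw [e', smul_smul]
    congr 1
    rw [show a + (s + 1) = a + s + 1 by ring, pow_succ]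
    ring

theorem G4_tn (hO : Good O) (t : ℕ) (ht : 0 < t) : Tn O 4 (G4 t ht - 1) := by
  refine ⟨1, one_pos, _, G4_one hO t ht, ?_⟩
  rw [smul_smul]
  norm_num

theorem G4_tn' (hO : Good O) (t : ℕ) (ht : 0 < t) {γ : SL(2, ℤ)} (hγ : γ ∈ Gamma0 t)
    (hγ' : γ ∉ Gamma0 (2 * t)) : Tn O 4 (G4 t ht ∣[(4 : ℤ)] γ) := by
  refine ⟨2, two_pos, _, G4_slash' hO t ht hγ hγ', ?_⟩
  rw [smul_smul]
  norm_num

/-- the character `γ ↦ e(d)` -/
def chr {N : ℕ} (e : DirichletCharacter ℂ N) (γ : SL(2, ℤ)) : ℂ := e ((γ 1 1 : ℤ) : ZMod N)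

theorem chr_mul {N : ℕ} (e : DirichletCharacter ℂ N) {g g' : SL(2, ℤ)} (hg : g ∈ Gamma0 N) :
    chr e (g * g') = chr e g * chr e g' := by
  have h1 : (g * g') 1 1 = g 1 0 * g' 0 1 + g 1 1 * g' 1 1 := by
    simp [Matrix.mul_apply, Fin.sum_univ_two]
  rw [Gamma0_mem] at hg
  rw [chr, h1]
  push_cast
  rw [hg, zero_mul, zero_add, map_mul]
  rfl

theorem chr_one {N : ℕ} (e : DirichletCharacter ℂ N) : chr e 1 = 1 := by
  rw [chr]
  simp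

theorem chr_mem (hO : Good O) {N : ℕ} [NeZero N] (e : DirichletCharacter ℂ N) (γ : SL(2, ℤ)) :
    chr e γ ∈ O := by
  rw [chr]
  set a : ZMod N := ((γ 1 1 : ℤ) : ZMod N)
  by_cases ha : IsUnit a
  · obtain ⟨u, hu⟩ := ha
    refine hO.root _ (Fintype.card (ZMod N)ˣ) Fintype.card_pos ?_
    rw [← hu, ← map_pow, ← Units.val_pow_eq_pow_val, pow_card_eq_one, Units.val_one, map_one]
  · rw [MulChar.map_nonunit e ha]
    exact O.zero_mem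

/-- one step -/
theorem level_step (hO : Good O) {N t : ℕ} (hN : Odd N) (ht : 0 < t) (e : DirichletCharacter ℂ N)
    {k : ℤ} {f : ℍ → ℂ} (hf : ∀ γ ∈ Gamma0 (N * (2 * t)), f ∣[k] γ = chr e γ • f)
    (hc : Cusps O k f) (m : ℕ) :
    ∃ s0 : ℕ, ∀ s ≥ s0, ∃ F : ℍ → ℂ,
      (∀ γ ∈ Gamma0 (N * t), F ∣[k + (2 ^ s : ℕ) * 4] γ = chr e γ • F) ∧
      Cusps O (k + (2 ^ s : ℕ) * 4) F ∧ Tn O m (F - f) := by
  classical
  have hN0 : N ≠ 0 := by rintro rfl; exact absurd hN (by decide)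
  have : NeZero N := ⟨hN0⟩
  have hpos : 0 < N * (2 * t) := Nat.mul_pos (Nat.pos_of_ne_zero hN0) (by omega)
  have : NeZero (N * (2 * t)) := ⟨hpos.ne'⟩
  have le1 : Gamma0 (N * (2 * t)) ≤ Gamma0 (N * t) := fun γ hγ => by
    rw [Gamma0_mem, ZMod.intCast_zmod_eq_zero_iff_dvd] at hγ ⊢
    exact dvd_trans ⟨2, by push_cast; ring⟩ hγ
  have le2 : Gamma0 (N * t) ≤ Gamma0 N := fun γ hγ => by
    rw [Gamma0_mem, ZMod.intCast_zmod_eq_zero_iff_dvd] at hγ ⊢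
    exact dvd_trans ⟨t, by push_cast; ring⟩ hγ
  have le3 : Gamma0 (N * t) ≤ Gamma0 t := fun γ hγ => by
    rw [Gamma0_mem, ZMod.intCast_zmod_eq_zero_iff_dvd] at hγ ⊢
    exact dvd_trans ⟨N, by push_cast; ring⟩ hγ
  have le4 : Gamma0 (N * (2 * t)) ≤ Gamma0 (2 * t) := fun γ hγ => by
    rw [Gamma0_mem, ZMod.intCast_zmod_eq_zero_iff_dvd] at hγ ⊢
    exact dvd_trans ⟨N, by push_cast; ring⟩ hγ
  have hnot : ∀ γ ∈ Gamma0 (N * t), γ ∉ Gamma0 (N * (2 * t)) → γ ∉ Gamma0 (2 * t) := by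
    intro γ hγ hγ' hcon
    apply hγ'
    rw [Gamma0_mem, ZMod.intCast_zmod_eq_zero_iff_dvd] at hγ hcon ⊢
    obtain ⟨x, hx⟩ := hγ
    obtain ⟨y, hy⟩ := hcon
    have ht' : (t : ℤ) ≠ 0 := by exact_mod_cast ht.ne'
    have e1 : (N : ℤ) * x = 2 * y := by
      have : (t : ℤ) * ((N : ℤ) * x) = (t : ℤ) * (2 * y) := by
        have := hx.symm.trans hy
        push_cast at this
        linarith
      exact mul_left_cancel₀ ht' this
    have h2 : (2 : ℤ) ∣ x := by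
      have h3 : (2 : ℤ) ∣ (N : ℤ) * x := ⟨y, e1⟩
      rcases Int.prime_two.dvd_or_dvd h3 with h4 | h4
      · exfalso
        have : 2 ∣ N := by exact_mod_cast h4
        exact (Nat.not_even_iff_odd.2 hN) (even_iff_two_dvd.2 this)
      · exact h4
    obtain ⟨z, hz⟩ := h2
    exact ⟨z, by rw [hx, hz]; push_cast; ring⟩
  obtain ⟨ι, _, g, hg, htr⟩ := trace_exists (Gamma0 (N * (2 * t))) (Gamma0 (N * t)) (chr e)
    (fun g hg g' _ => chr_mul e (le2 hg)) (chr_one e) le1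
  obtain ⟨s1, hs1⟩ := hc.toBd.mul_tn
  have hs2 : ∀ i : ι, ∃ s : ℕ, ∀ (m : ℕ) (G : ℍ → ℂ), Tn O (m + s) G →
    Tn O m ((f ∣[k] g i) * G) := fun i => (hc (g i)).mul_tn
  choose s2 hs2 using hs2
  refine ⟨m + s1 + ∑ i, s2 i, fun s hs => ?_⟩
  set n : ℕ := 2 ^ s with hn
  have hsn : s ≤ n := (Nat.lt_two_pow_self).le
  set H : ℍ → ℂ := f * (G4 t ht) ^ n with hH
  have hslash : ∀ γ : SL(2, ℤ), H ∣[k + (n : ℤ) * 4] γ = (f ∣[k] γ) * (G4 t ht ∣[(4 : ℤ)] γ) ^ n := by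
    intro γ
    rw [hH, ModularForm.mul_slash_SL2, pow_slash]
  have hHinv : ∀ γ ∈ Gamma0 (N * (2 * t)), H ∣[k + (n : ℤ) * 4] γ = chr e γ • H := by
    intro γ hγ
    rw [hslash, hf γ hγ, G4_slash t ht (le4 hγ), smul_mul_assoc]
  refine ⟨H + ∑ i, chr e (g i)⁻¹ • (H ∣[k + (n : ℤ) * 4] g i), htr _ H hHinv, ?_, ?_⟩
  · have hHc : Cusps O (k + (n : ℤ) * 4) H := hc.mul ((G4_cusps hO t ht).pow n)
    exact hHc.add (Cusps.sum fun i _ => (hHc.slash (g i)).smul hO _)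
  · have e1 : H + ∑ i, chr e (g i)⁻¹ • (H ∣[k + (n : ℤ) * 4] g i) - f =
        f * ((G4 t ht) ^ n - 1) + ∑ i, chr e (g i)⁻¹ • (H ∣[k + (n : ℤ) * 4] g i) := by
      rw [hH]
      ring
    rw [e1]
    refine Tn.add ?_ (Tn.sum fun i _ => ?_)
    · apply hs1
      refine (one_add_pow (by norm_num) (G4_tn hO t ht) s).mono ?_
      omega
    · refine Tn.smul' (chr_mem hO e _) ?_
      rw [hslash]
      apply hs2 i
      refine ((G4_tn' hO t ht (le3 (hg i).1) (hnot _ (hg i).1 (hg i).2)).pow n).mono ?_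
      have : s2 i ≤ ∑ i, s2 i := Finset.single_le_sum (fun _ _ => Nat.zero_le _) (Finset.mem_univ i)
      omega

/-- all the way down to odd level -/
theorem level_down (hO : Good O) {N : ℕ} (hN : Odd N) (e : DirichletCharacter ℂ N) (M : ℕ)
    (J : ℕ) : ∀ {k : ℤ} {f : ℍ → ℂ}, (∀ γ ∈ Gamma0 (N * 2 ^ J), f ∣[k] γ = chr e γ • f) →
    Cusps O k f → ∀ m : ℕ, ∃ (w : ℕ) (F : ℍ → ℂ), 2 ^ M ∣ w ∧
      (∀ γ ∈ Gamma0 N, F ∣[k + w] γ = chr e γ • F) ∧ Cusps O (k + w) F ∧ Tn O m (F - f) := by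
  induction J with
  | zero =>
    intro k f hf hc m
    refine ⟨0, f, dvd_zero _, ?_, ?_, ?_⟩
    · intro γ hγ
      rw [Nat.cast_zero, add_zero]
      exact hf γ (by rw [pow_zero, mul_one]; exact hγ)
    · rw [Nat.cast_zero, add_zero]; exact hc
    · rw [sub_self]; exact Tn.zero m
  | succ J ih =>
    intro k f hf hc m
    obtain ⟨s0, hs0⟩ := level_step hO hN (t := 2 ^ J) (by positivity) e (f := f)
      (by rw [← pow_succ']; exact hf) hc m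
    obtain ⟨F1, h1, h2, h3⟩ := hs0 (max s0 M) (le_max_left _ _)
    obtain ⟨w, F, hw, h4, h5, h6⟩ := ih h1 h2 m
    refine ⟨2 ^ (max s0 M) * 4 + w, F, ?_, ?_, ?_, ?_⟩
    · refine dvd_add (dvd_mul_of_dvd_left (pow_dvd_pow 2 (le_max_right _ _)) _) hw
    · intro γ hγ
      have := h4 γ hγ
      rw [show k + ((2 ^ (max s0 M) * 4 + w : ℕ) : ℤ) = k + ((2 ^ (max s0 M) : ℕ) : ℤ) * 4 + w by
        push_cast; ring]
      exact this
    · rw [show k + ((2 ^ (max s0 M) * 4 + w : ℕ) : ℤ) = k + ((2 ^ (max s0 M) : ℕ) : ℤ) * 4 + w by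
        push_cast; ring]
      exact h5
    · have : F - f = (F - F1) + (F1 - f) := by ring
      rw [this]
      exact h6.add h3

end Vale.Agent.P022.H903
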