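import Mathlib.NumberTheory.ModularForms.QExpansion
import Mathlib.NumberTheory.ModularForms.Derivative

/-!
# Functions on the upper half plane with `O`-integral `q`-expansions
-/

open scoped ModularForm MatrixGroups Manifold Topology
open UpperHalfPlane Filter

noncomputable section

namespace Vale.Agent.P022.H903

/-- `F` has a `q_h`-expansion, `q_h = exp (2 pi i z / h)`, with coefficients in the subring `O`
of `ℂ`. -/
def QI (O : Subring ℂ) (h : ℕ) (F : ℍ → ℂ) : Prop :=
  ∃ a : ℕ → ℂ, (∀ n, a n ∈ O) ∧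
    ∀ τ : ℍ, HasSum (fun n => a n * Function.Periodic.qParam (h : ℝ) τ ^ n) (F τ)

/-- The subring `O` of `ℂ` is 2-adic: it contains all roots of unity and all inverses of odd
integers, and it becomes `ℂ` after inverting 2. -/
structure Good (O : Subring ℂ) : Prop where
  root : ∀ (z : ℂ) (n : ℕ), 0 < n → z ^ n = 1 → z ∈ O
  odd : ∀ n : ℤ, Odd n → ((n : ℂ))⁻¹ ∈ O
  half : ∀ c : ℂ, ∃ s : ℕ, (2 : ℂ) ^ s * c ∈ O

variable {O : Subring ℂ} {h : ℕ}

theorem hs_congr {f g : ℕ → ℂ} {x : ℂ} (h : HasSum g x) (e : ∀ m, f m = g m) : HasSum f x := by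
  rw [funext e]
  exact h

theorem QI.zero : QI O h 0 :=
  ⟨fun _ => 0, fun _ => O.zero_mem, fun τ => by simp [hasSum_zero]⟩

theorem QI.const {c : ℂ} (hc : c ∈ O) : QI O h (fun _ => c) := by
  refine ⟨fun n => if n = 0 then c else 0, fun n => ?_, fun τ => ?_⟩
  · show (if n = 0 then c else 0) ∈ O
    split_ifs
    · exact hc
    · exact O.zero_mem
  · refine hs_congr (hasSum_ite_eq (0 : ℕ) c) fun m => ?_
    by_cases hm : m = 0
    · simp [hm]
    · simp [hm]

theorem QI.one : QI O h 1 := QI.const O.one_mem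

theorem QI.add {F G : ℍ → ℂ} (hF : QI O h F) (hG : QI O h G) : QI O h (F + G) := by
  obtain ⟨a, ha, hs⟩ := hF
  obtain ⟨b, hb, ht⟩ := hG
  refine ⟨fun n => a n + b n, fun n => O.add_mem (ha n) (hb n), fun τ => ?_⟩
  exact hs_congr ((hs τ).add (ht τ)) fun m => by ring

theorem QI.neg {F : ℍ → ℂ} (hF : QI O h F) : QI O h (-F) := by
  obtain ⟨a, ha, hs⟩ := hF
  refine ⟨fun n => - a n, fun n => O.neg_mem (ha n), fun τ => ?_⟩
  exact hs_congr ((hs τ).neg) fun m => by ring

theorem QI.sub {F G : ℍ → ℂ} (hF : QI O h F) (hG : QI O h G) : QI O h (F - G) := by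
  rw [sub_eq_add_neg]
  exact hF.add hG.neg

theorem QI.mul {F G : ℍ → ℂ} (hF : QI O h F) (hG : QI O h G) : QI O h (F * G) := by
  obtain ⟨a, ha, hs⟩ := hF
  obtain ⟨b, hb, ht⟩ := hG
  refine ⟨fun n => ∑ p ∈ Finset.antidiagonal n, a p.1 * b p.2,
    fun n => O.sum_mem fun p _ => O.mul_mem (ha _) (hb _), fun τ => ?_⟩
  have h1 := (hs τ).summable.norm
  have h2 := (ht τ).summable.norm
  have h3 := tsum_mul_tsum_eq_tsum_sum_antidiagonal_of_summable_norm h1 h2
  have h4 := (summable_norm_sum_mul_antidiagonal_of_summable_norm h1 h2).of_norm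
  have h5 : HasSum (fun n => ∑ p ∈ Finset.antidiagonal n,
      (a p.1 * Function.Periodic.qParam h τ ^ p.1) * (b p.2 * Function.Periodic.qParam h τ ^ p.2))
      ((F * G) τ) := by
    have := h4.hasSum
    rw [← h3, (hs τ).tsum_eq, (ht τ).tsum_eq] at this
    exact this
  refine hs_congr h5 fun m => ?_
  rw [Finset.sum_mul]
  refine Finset.sum_congr rfl fun p hp => ?_
  rw [← Finset.mem_antidiagonal.1 hp, pow_add]
  ring

theorem QI.pow {F : ℍ → ℂ} (hF : QI O h F) (n : ℕ) : QI O h (F ^ n) := by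
  induction n with
  | zero => rw [pow_zero]; exact QI.one
  | succ n ih => rw [pow_succ]; exact ih.mul hF

theorem QI.smul {F : ℍ → ℂ} {c : ℂ} (hc : c ∈ O) (hF : QI O h F) : QI O h (c • F) := by
  have : c • F = (fun _ => c) * F := by ext τ; simp
  rw [this]
  exact (QI.const hc).mul hF

theorem QI.sum {ι : Type*} {s : Finset ι} {F : ι → ℍ → ℂ} (hF : ∀ i ∈ s, QI O h (F i)) :
    QI O h (∑ i ∈ s, F i) := by
  classical
  induction s using Finset.induction_on with
  | empty => simpa using QI.zero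
  | insert i s hi ih =>
    rw [Finset.sum_insert hi]
    exact (hF i (Finset.mem_insert_self _ _)).add
      (ih fun j hj => hF j (Finset.mem_insert_of_mem hj))

/-- change of the period: from `h` to `m h` -/
theorem QI.mulPeriod {F : ℍ → ℂ} (hF : QI O h F) {m : ℕ} (hm : 0 < m) : QI O (m * h) F := by
  obtain ⟨a, ha, hs⟩ := hF
  have inj : Function.Injective (fun n : ℕ => m * n) := fun a b h =>
    Nat.eq_of_mul_eq_mul_left hm h
  have hmc : (m : ℂ) ≠ 0 := by exact_mod_cast hm.ne'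
  refine ⟨fun n => if m ∣ n then a (n / m) else 0, fun n => ?_, fun τ => ?_⟩
  · show (if m ∣ n then a (n / m) else 0) ∈ O
    split_ifs
    · exact ha _
    · exact O.zero_mem
  · refine (inj.hasSum_iff ?_).1 ?_
    · intro x hx
      beta_reduce
      rw [if_neg, zero_mul]
      rintro ⟨y, rfl⟩
      exact hx ⟨y, rfl⟩
    · refine hs_congr (hs τ) fun n => ?_
      simp only [Function.comp_apply, dvd_mul_right, if_true]
      rw [Nat.mul_div_cancel_left _ hm, Function.Periodic.qParam, Function.Periodic.qParam,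
        ← Complex.exp_nat_mul, ← Complex.exp_nat_mul]
      congr 2
      push_cast
      by_cases hh : (h : ℂ) = 0
      · simp [hh]
      · field_simp

theorem QI.mulPeriod' {F : ℍ → ℂ} (hF : QI O h F) {m : ℕ} (hm : 0 < m) : QI O (h * m) F := by
  rw [mul_comm]
  exact hF.mulPeriod hm

/-- `F((a z + b) / d)` -/
theorem QI.comp_tri (hO : Good O) {F G : ℍ → ℂ} (hh : 0 < h) (hF : QI O h F) {a d : ℕ}
    (ha : 0 < a) (hd : 0 < d) (b : ℤ)
    (hG : ∀ τ τ' : ℍ, (τ' : ℂ) = (a * τ + b) / d → G τ = F τ') :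
    QI O (d * h) G := by
  obtain ⟨c, hc, hs⟩ := hF
  have inj : Function.Injective (fun n : ℕ => a * n) := fun x y h =>
    Nat.eq_of_mul_eq_mul_left ha h
  have hdc : (d : ℂ) ≠ 0 := by exact_mod_cast hd.ne'
  have hhc : (h : ℂ) ≠ 0 := by exact_mod_cast hh.ne'
  have hb : Complex.exp (2 * Real.pi * Complex.I * b / (d * h)) ∈ O := by
    refine hO.root _ (d * h) (Nat.mul_pos hd hh) ?_
    rw [← Complex.exp_nat_mul, Complex.exp_eq_one_iff]
    refine ⟨b, ?_⟩
    push_cast
    field_simp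
  refine ⟨fun n => if a ∣ n then c (n / a) *
    Complex.exp (2 * Real.pi * Complex.I * b / (d * h)) ^ (n / a) else 0, fun n => ?_, fun τ => ?_⟩
  · show (if a ∣ n then c (n / a) *
      Complex.exp (2 * Real.pi * Complex.I * b / (d * h)) ^ (n / a) else 0) ∈ O
    split_ifs
    · exact O.mul_mem (hc _) (O.pow_mem hb _)
    · exact O.zero_mem
  · have him : 0 < (((a : ℂ) * τ + b) / d).im := by
      have e : (((a : ℂ) * τ + b) / d) = ((((a : ℝ) / (d : ℝ) : ℝ) : ℂ) * τ) +
          (((b : ℝ) / (d : ℝ) : ℝ) : ℂ) := by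
        push_cast
        field_simp
      rw [e, Complex.add_im, Complex.im_ofReal_mul, Complex.ofReal_im, add_zero]
      exact mul_pos (div_pos (by exact_mod_cast ha) (by exact_mod_cast hd)) τ.im_pos
    set τ' : ℍ := ⟨((a : ℂ) * τ + b) / d, him⟩ with hτ'
    rw [hG τ τ' rfl]
    refine (inj.hasSum_iff ?_).1 ?_
    · intro x hx
      beta_reduce
      rw [if_neg, zero_mul]
      rintro ⟨y, rfl⟩
      exact hx ⟨y, rfl⟩
    · refine hs_congr (hs τ') fun n => ?_
      simp only [Function.comp_apply, dvd_mul_right, if_true]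
      rw [Nat.mul_div_cancel_left _ ha, Function.Periodic.qParam, Function.Periodic.qParam,
        ← Complex.exp_nat_mul, ← Complex.exp_nat_mul, ← Complex.exp_nat_mul]
      have e1 : ((τ' : ℍ) : ℂ) = (a * τ + b) / d := rfl
      rw [e1, mul_assoc, ← Complex.exp_add]
      congr 2
      push_cast
      field_simp
      ring

theorem QI.summable_aux {F : ℍ → ℂ} (hh : 0 < h) {a : ℕ → ℂ}
    (hs : ∀ τ : ℍ, HasSum (fun n => a n * Function.Periodic.qParam (h : ℝ) τ ^ n) (F τ))
    (y : ℝ) (hy : 0 < y) :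
    ∃ u : ℕ → ℝ, Summable u ∧ (∀ n (w : ℂ), w ∈ {w : ℂ | y < w.im} →
      ‖a n * Function.Periodic.qParam (h : ℝ) w ^ n‖ ≤ u n) := by
  set τ : ℍ := ⟨y * Complex.I, by simpa using hy⟩ with hτ
  refine ⟨_, (hs τ).summable.norm, fun n w hw => ?_⟩
  rw [norm_mul, norm_mul, norm_pow, norm_pow]
  gcongr 1
  refine pow_le_pow_left₀ (norm_nonneg _) ?_ n
  rw [Function.Periodic.norm_qParam, Function.Periodic.norm_qParam]
  have e : ((τ : ℍ) : ℂ).im = y := by
    show ((y : ℂ) * Complex.I).im = y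
    simp
  rw [e]
  have hhr : (0 : ℝ) < h := by exact_mod_cast hh
  have h1 : y < w.im := hw
  gcongr 1
  rw [div_le_div_iff_of_pos_right hhr]
  nlinarith [Real.pi_pos]

theorem QI.eqOn {F : ℍ → ℂ} {a : ℕ → ℂ}
    (hs : ∀ τ : ℍ, HasSum (fun n => a n * Function.Periodic.qParam (h : ℝ) τ ^ n) (F τ))
    {w : ℂ} (hw : 0 < w.im) :
    (F ∘ ofComplex) w = ∑' n, a n * Function.Periodic.qParam (h : ℝ) w ^ n := by
  rw [Function.comp_apply, ofComplex_apply_of_im_pos hw]
  exact (hs ⟨w, hw⟩).tsum_eq.symm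

theorem diff_term (a : ℕ → ℂ) (n : ℕ) : Differentiable ℂ
    (fun w => a n * Function.Periodic.qParam (h : ℝ) w ^ n) := by
  unfold Function.Periodic.qParam
  fun_prop

theorem QI.mdiff {F : ℍ → ℂ} (hh : 0 < h) (hF : QI O h F) : MDiff F := by
  obtain ⟨a, ha, hs⟩ := hF
  rw [UpperHalfPlane.mdifferentiable_iff]
  intro z hz
  have hz' : 0 < z.im := hz
  obtain ⟨u, hu, hle⟩ := QI.summable_aux hh hs (z.im / 2) (half_pos hz)
  have hopen : IsOpen {w : ℂ | z.im / 2 < w.im} := isOpen_lt continuous_const Complex.continuous_im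
  have h1 := Complex.differentiableOn_tsum_of_summable_norm hu
    (F := fun n w => a n * Function.Periodic.qParam (h : ℝ) w ^ n)
    (fun n => (diff_term a n).differentiableOn) hopen hle
  have hmem : z ∈ {w : ℂ | z.im / 2 < w.im} := by
    show z.im / 2 < z.im
    linarith
  have h2 := h1.differentiableAt (hopen.mem_nhds hmem)
  refine (h2.congr_of_eventuallyEq ?_).differentiableWithinAt
  filter_upwards [hopen.mem_nhds hmem] with w hw
  have hw' : z.im / 2 < w.im := hw
  exact QI.eqOn hs (by linarith)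

theorem QI.bdd {F : ℍ → ℂ} (hh : 0 < h) (hF : QI O h F) : IsBoundedAtImInfty F := by
  obtain ⟨a, ha, hs⟩ := hF
  exact isBoundedAtImInfty_of_hasSum_qExpansion (h := (h : ℝ)) (by exact_mod_cast hh)
    (c := a) hs

open Derivative in
theorem QI.hasSum_deriv {F : ℍ → ℂ} (hh : 0 < h) {a : ℕ → ℂ}
    (hs : ∀ τ : ℍ, HasSum (fun n => a n * Function.Periodic.qParam (h : ℝ) τ ^ n) (F τ))
    (τ : ℍ) : HasSum (fun n : ℕ => ((n : ℂ) * a n) * Function.Periodic.qParam (h : ℝ) τ ^ n)
      (((h : ℂ) • normalizedDerivOfComplex F) τ) := by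
  have hτ := τ.im_pos
  obtain ⟨u, hu, hle⟩ := QI.summable_aux hh hs (τ.im / 2) (half_pos hτ)
  have hopen : IsOpen {w : ℂ | τ.im / 2 < w.im} := isOpen_lt continuous_const Complex.continuous_im
  have hmem : (τ : ℂ) ∈ {w : ℂ | τ.im / 2 < w.im} := by
    show τ.im / 2 < (τ : ℂ).im
    rw [UpperHalfPlane.coe_im]
    linarith
  have h1 := Complex.hasSum_deriv_of_summable_norm hu
    (F := fun n w => a n * Function.Periodic.qParam (h : ℝ) w ^ n)
    (fun n => (diff_term a n).differentiableOn) hopen hle hmem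
  have h2 : deriv (F ∘ ofComplex) (τ : ℂ) = deriv (fun w : ℂ => ∑' n, a n *
      Function.Periodic.qParam (h : ℝ) w ^ n) (τ : ℂ) := by
    refine Filter.EventuallyEq.deriv_eq ?_
    filter_upwards [hopen.mem_nhds hmem] with w hw
    have hw' : τ.im / 2 < w.im := hw
    exact QI.eqOn hs (by linarith)
  rw [← h2] at h1
  have h3 := h1.mul_left ((h : ℂ) * (2 * Real.pi * Complex.I)⁻¹)
  have hhc : (h : ℂ) ≠ 0 := by exact_mod_cast hh.ne'
  have e : ((h : ℂ) • normalizedDerivOfComplex F) τ = (h : ℂ) * (2 * Real.pi * Complex.I)⁻¹ *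
      deriv (F ∘ ofComplex) (τ : ℂ) := by
    simp only [Pi.smul_apply, smul_eq_mul, normalizedDerivOfComplex]
    ring
  rw [e]
  refine hs_congr h3 fun n => ?_
  have hd : HasDerivAt (fun w => a n * Function.Periodic.qParam (h : ℝ) w ^ n)
      (a n * (Function.Periodic.qParam (h : ℝ) τ ^ n * (n * (2 * Real.pi * Complex.I / h)))) τ := by
    have h4 : HasDerivAt (fun w : ℂ => Complex.exp (n * (2 * Real.pi * Complex.I * w / h)))
        (Complex.exp (n * (2 * Real.pi * Complex.I * τ / h)) *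
          (n * (2 * Real.pi * Complex.I / h))) τ := by
      refine HasDerivAt.cexp ?_
      refine HasDerivAt.const_mul _ ?_
      have := ((hasDerivAt_id (τ : ℂ)).const_mul (2 * Real.pi * Complex.I)).div_const (h : ℂ)
      simpa using this
    have h5 := h4.const_mul (a n)
    have e2 : ∀ w : ℂ, Function.Periodic.qParam (h : ℝ) w ^ n =
        Complex.exp (n * (2 * Real.pi * Complex.I * w / h)) := by
      intro w
      rw [Function.Periodic.qParam, ← Complex.exp_nat_mul]
      simp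
    simp_rw [e2]
    exact h5
  rw [hd.deriv]
  have hpi : (2 * Real.pi * Complex.I : ℂ) ≠ 0 := Complex.two_pi_I_ne_zero
  field_simp

open Derivative in
theorem QI.deriv {F : ℍ → ℂ} (hh : 0 < h) (hF : QI O h F) :
    QI O h ((h : ℂ) • normalizedDerivOfComplex F) := by
  obtain ⟨a, ha, hs⟩ := hF
  exact ⟨fun n : ℕ => (n : ℂ) * a n, fun n => O.mul_mem (natCast_mem O n) (ha n),
    QI.hasSum_deriv hh hs⟩

end Vale.Agent.P022.H903
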