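import Vale.Agent.P022.H903.Iter

/-!
# Approximation by forms of odd level
-/

open scoped ModularForm MatrixGroups Manifold Topology
open UpperHalfPlane Filter Matrix CongruenceSubgroup EisensteinSeries Derivative

noncomputable section

namespace Vale.Agent.P022.H903

variable {O : Subring ℂ} {h : ℕ}

/-- The function `u ↦ g u` on odd integers is approximated modulo `2^m` by
`u ↦ ∑ u^i F_i` with `F_i` of weight `i+1` on `Γ₀(N)` with character `e`. -/
def Approx (O : Subring ℂ) {N : ℕ} (e : DirichletCharacter ℂ N) (m : ℕ) (g : ℤ → ℍ → ℂ) : Prop :=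
  ∃ (K : ℕ) (F : ℕ → ℍ → ℂ), (∀ i, K ≤ i → F i = 0) ∧
    (∀ i, ∀ γ ∈ Gamma0 N, F i ∣[((i + 1 : ℕ) : ℤ)] γ = chr e γ • F i) ∧
    (∀ i, Cusps O ((i + 1 : ℕ) : ℤ) (F i)) ∧
    ∀ u : ℤ, Odd u → Tn O m (∑ i ∈ Finset.range K, (u : ℂ) ^ i • F i - g u)

theorem Bd.zero : Bd O 0 := ⟨1, one_pos, 0, by simpa using QI.zero⟩

theorem Cusps.zero (k : ℤ) : Cusps O k 0 := fun γ => by
  rw [SlashAction.zero_slash]
  exact Bd.zero

theorem Approx.add {N : ℕ} {e : DirichletCharacter ℂ N} {m : ℕ} {g g' : ℤ → ℍ → ℂ}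
    (hg : Approx O e m g) (hg' : Approx O e m g') : Approx O e m (fun u => g u + g' u) := by
  obtain ⟨K, F, h1, h2, h3, h4⟩ := hg
  obtain ⟨K', F', h1', h2', h3', h4'⟩ := hg'
  refine ⟨max K K', fun i => F i + F' i, ?_, ?_, ?_, ?_⟩
  · intro i hi
    show F i + F' i = 0
    rw [h1 i ((le_max_left _ _).trans hi), h1' i ((le_max_right _ _).trans hi), add_zero]
  · intro i γ hγ
    rw [SlashAction.add_slash, h2 i γ hγ, h2' i γ hγ, smul_add]
  · intro i
    exact (h3 i).add (h3' i)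
  · intro u hu
    have e1 : ∑ i ∈ Finset.range K, (u : ℂ) ^ i • F i =
        ∑ i ∈ Finset.range (max K K'), (u : ℂ) ^ i • F i := by
      refine Finset.sum_subset (Finset.range_subset_range.2 (le_max_left _ _)) fun i _ hi => ?_
      rw [h1 i (by simpa using hi), smul_zero]
    have e2 : ∑ i ∈ Finset.range K', (u : ℂ) ^ i • F' i =
        ∑ i ∈ Finset.range (max K K'), (u : ℂ) ^ i • F' i := by
      refine Finset.sum_subset (Finset.range_subset_range.2 (le_max_right _ _)) fun i _ hi => ?_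
      rw [h1' i (by simpa using hi), smul_zero]
    have h5 := (h4 u hu).add (h4' u hu)
    rw [e1, e2] at h5
    have e3 : ∑ i ∈ Finset.range (max K K'), (u : ℂ) ^ i • (F i + F' i) - (g u + g' u) =
        (∑ i ∈ Finset.range (max K K'), (u : ℂ) ^ i • F i - g u) +
        (∑ i ∈ Finset.range (max K K'), (u : ℂ) ^ i • F' i - g' u) := by
      simp only [smul_add, Finset.sum_add_distrib]
      ring
    rw [e3]
    exact h5

theorem Approx.zero {N : ℕ} {e : DirichletCharacter ℂ N} {m : ℕ} :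
    Approx O e m (fun _ => 0) := by
  refine ⟨0, fun _ => 0, fun _ _ => rfl, fun i γ _ => ?_, fun i => Cusps.zero _, fun u _ => ?_⟩
  · rw [SlashAction.zero_slash, smul_zero]
  · rw [Finset.range_zero, Finset.sum_empty, sub_zero]
    exact Tn.zero m

theorem Approx.sum {N : ℕ} {e : DirichletCharacter ℂ N} {m : ℕ} {ι : Type*} {s : Finset ι}
    {g : ι → ℤ → ℍ → ℂ} (hg : ∀ i ∈ s, Approx O e m (g i)) :
    Approx O e m (fun u => ∑ i ∈ s, g i u) := by
  classical
  induction s using Finset.induction_on with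
  | empty => simpa using Approx.zero
  | insert i s hi ih =>
    simp only [Finset.sum_insert hi]
    exact (hg i (Finset.mem_insert_self _ _)).add
      (ih fun j hj => hg j (Finset.mem_insert_of_mem hj))

theorem Approx.close {N : ℕ} {e : DirichletCharacter ℂ N} {m : ℕ} {g g' : ℤ → ℍ → ℂ}
    (hg : Approx O e m g) (hgg : ∀ u : ℤ, Odd u → Tn O m (g u - g' u)) : Approx O e m g' := by
  obtain ⟨K, F, h1, h2, h3, h4⟩ := hg
  refine ⟨K, F, h1, h2, h3, fun u hu => ?_⟩
  have := (h4 u hu).add (hgg u hu)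
  rwa [sub_add_sub_cancel] at this

theorem odd_pow_sub_one {u : ℤ} (hu : Odd u) {M w : ℕ} (hw : 2 ^ M ∣ w) :
    ∃ z : ℤ, u ^ w - 1 = 2 ^ M * z := by
  obtain ⟨w', rfl⟩ := hw
  have h1 : ((2 : ℤ) ^ M : ℤ) ∣ u ^ (2 ^ M) - 1 := by
    have h2 : IsCoprime u ((2 ^ (M + 1) : ℕ) : ℤ) := by
      push_cast
      rcases hu with ⟨k, rfl⟩
      exact IsCoprime.pow_right ⟨1, -k, by ring⟩
    have h4 : u ^ Nat.totient (2 ^ (M + 1)) ≡ 1 [ZMOD ((2 ^ (M + 1) : ℕ) : ℤ)] := by
      rw [← ZMod.intCast_eq_intCast_iff]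
      push_cast
      have h5 : IsUnit ((u : ℤ) : ZMod (2 ^ (M + 1))) := by
        rw [ZMod.coe_int_isUnit_iff_isCoprime]
        exact h2.symm
      obtain ⟨x, hx⟩ := h5
      rw [← hx, ← Units.val_pow_eq_pow_val, ZMod.pow_totient, Units.val_one]
    rw [Nat.totient_prime_pow_succ Nat.prime_two, show 2 ^ M * (2 - 1) = 2 ^ M by simp] at h4
    have h6 := h4.symm.dvd
    refine dvd_trans ?_ h6
    push_cast
    exact pow_dvd_pow 2 (Nat.le_succ M)
  have h2 : ((2 : ℤ) ^ M : ℤ) ∣ u ^ (2 ^ M * w') - 1 := by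
    rw [pow_mul]
    refine h1.trans ?_
    simpa using sub_dvd_pow_sub_pow (u ^ 2 ^ M) 1 w'
  obtain ⟨z, hz⟩ := h2
  exact ⟨z, hz⟩

theorem approx_form (hO : Good O) {N : ℕ} (hN : Odd N) (e : DirichletCharacter ℂ N) (J k : ℕ)
    {f : ℍ → ℂ} (hf : ∀ γ ∈ Gamma0 (N * 2 ^ J), f ∣[((k + 1 : ℕ) : ℤ)] γ = chr e γ • f)
    (hc : Cusps O ((k + 1 : ℕ) : ℤ) f) (m : ℕ) :
    Approx O e m (fun u => (u : ℂ) ^ k • f) := by
  obtain ⟨h, hh, s, hQ⟩ := hc.toBd
  obtain ⟨w, F, hw, h1, h2, h3⟩ := level_down hO hN e (m + s) J hf hc m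
  have ek : ((k + 1 : ℕ) : ℤ) + (w : ℤ) = ((k + w + 1 : ℕ) : ℤ) := by
    push_cast
    ring
  rw [ek] at h2
  refine ⟨k + w + 1, fun i => if i = k + w then F else 0, ?_, ?_, ?_, ?_⟩
  · intro i hi
    exact if_neg (by omega)
  · intro i γ hγ
    by_cases hi : i = k + w
    · simp only [if_pos hi]
      rw [hi, ← ek]
      exact h1 γ hγ
    · simp only [if_neg hi]
      rw [SlashAction.zero_slash, smul_zero]
  · intro i
    by_cases hi : i = k + w
    · simp only [if_pos hi]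
      rw [hi]
      exact h2
    · simp only [if_neg hi]
      exact Cusps.zero _
  · intro u hu
    have e1 : ∑ i ∈ Finset.range (k + w + 1), (u : ℂ) ^ i • (if i = k + w then F else 0) =
        (u : ℂ) ^ (k + w) • F := by
      rw [Finset.sum_eq_single (k + w)]
      · rw [if_pos rfl]
      · intro b _ hb
        rw [if_neg hb, smul_zero]
      · intro hn
        exact absurd (Finset.mem_range.2 (Nat.lt_succ_self _)) hn
    rw [e1]
    obtain ⟨z, hz⟩ := odd_pow_sub_one hu hw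
    have hzc : (u : ℂ) ^ w = 1 + 2 ^ (m + s) * z := by
      have : ((u ^ w : ℤ) : ℂ) = ((1 + 2 ^ (m + s) * z : ℤ) : ℂ) := by
        rw [← hz]
        congr 1
        ring
      push_cast at this
      exact this
    have e2 : (u : ℂ) ^ (k + w) • F - (u : ℂ) ^ k • f = (u : ℂ) ^ (k + w) • (F - f) +
        ((u : ℂ) ^ k * z) • ((2 : ℂ) ^ m • ((2 : ℂ) ^ s • f)) := by
      ext τ
      simp only [Pi.sub_apply, Pi.add_apply, Pi.smul_apply, smul_eq_mul]
      rw [pow_add, hzc, pow_add]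
      ring
    rw [e2]
    have hu' : (u : ℂ) ∈ O := intCast_mem O u
    have hz' : (z : ℂ) ∈ O := intCast_mem O z
    exact (h3.smul' (pow_mem hu' _)).add
      (Tn.smul' (mul_mem (pow_mem hu' _) hz') ⟨h, hh, _, hQ, rfl⟩)

/-- Newton polynomials for the sign of `x` -/
def Qp : ℕ → Polynomial ℂ
  | 0 => 1
  | r + 1 => Polynomial.C (1 / 2) * Qp r * (3 - Polynomial.X * Qp r ^ 2)

theorem Qp_close {x : ℍ → ℂ} (hx : Tn O 2 (x - 1)) (r : ℕ) :
    Tn O (r + 2) (x * Polynomial.aeval (x ^ 2) (Qp r) - 1) := by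
  induction r with
  | zero => simpa [Qp] using hx
  | succ r ih =>
    set y : ℍ → ℂ := x * Polynomial.aeval (x ^ 2) (Qp r) with hy
    obtain ⟨h, hh, Z, hZ, eZ⟩ := ih
    have e1 : x * Polynomial.aeval (x ^ 2) (Qp (r + 1)) = (1 / 2 : ℂ) • (y * (3 - y ^ 2)) := by
      rw [Qp, map_mul, map_mul, map_sub, map_mul, Polynomial.aeval_C, Polynomial.aeval_X, map_pow,
        map_ofNat, hy]
      ext τ
      simp only [Pi.mul_apply, Pi.smul_apply, Pi.sub_apply, Pi.pow_apply, smul_eq_mul,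
        Pi.algebraMap_apply, Algebra.algebraMap_self, RingHom.id_apply]
      ring
    refine ⟨h, hh, (2 : ℂ) ^ r • (-(Z ^ 2 * (3 + (2 : ℂ) ^ (r + 2) • Z))), ?_, ?_⟩
    · refine QI.smul (pow_mem (two_mem O) _) (QI.neg ((hZ.pow 2).mul (QI.add ?_ (hZ.smul
        (pow_mem (two_mem O) _)))))
      have : (3 : ℍ → ℂ) = fun _ => (3 : ℂ) := rfl
      rw [this]
      exact QI.const (by exact_mod_cast natCast_mem O 3)
    · rw [e1]
      have hyZ : y = 1 + (2 : ℂ) ^ (r + 2) • Z := by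
        rw [← eZ]
        ring
      rw [hyZ]
      ext τ
      simp only [Pi.mul_apply, Pi.smul_apply, Pi.sub_apply, Pi.pow_apply, smul_eq_mul,
        Pi.add_apply, Pi.neg_apply, Pi.ofNat_apply]
      ring

end Vale.Agent.P022.H903
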