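import Vale.Agent.P022.H903.Uniq

/-!
# The operator `q d/dq` modulo powers of 2
-/

open scoped ModularForm MatrixGroups Manifold Topology
open UpperHalfPlane Filter Matrix CongruenceSubgroup EisensteinSeries Derivative

noncomputable section

namespace Vale.Agent.P022.H903

variable {O : Subring ℂ} {h : ℕ}

/-- `(1 - E_2) / 24` -/
def Y2 : ℍ → ℂ := (-24 : ℂ)⁻¹ • (E2 - 1)

theorem E2_eq : E2 = 1 + (-24 : ℂ) • Y2 := by
  rw [Y2, smul_smul, mul_inv_cancel₀ (by norm_num), one_smul]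
  ring

theorem Y2_QI : QI O 1 Y2 := by
  refine ⟨fun n => (ArithmeticFunction.sigma 1 n : ℂ), fun n => natCast_mem O _, fun τ => ?_⟩
  have h1 := (hasSum_qExpansion_E2 (z := τ)).sub (hasSum_ite_eq (0 : ℕ) (1 : ℂ))
  have h2 := h1.mul_left ((-24 : ℂ)⁻¹)
  have e : Y2 τ = (-24 : ℂ)⁻¹ * (E2 τ - 1) := by simp [Y2]
  rw [e]
  refine hs_congr h2 fun n => ?_
  by_cases hn : n = 0
  · subst hn; simp
  · rw [if_neg hn, if_neg hn, Function.Periodic.qParam, smul_eq_mul, Nat.cast_one,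
      Complex.ofReal_one, div_one]
    ring

theorem E2_QI : QI O 1 E2 := by
  rw [E2_eq]
  refine QI.one.add (Y2_QI.smul ?_)
  exact_mod_cast O.neg_mem (natCast_mem O 24)

/-- `t E_2(t z)` -/
def E2t (t : ℕ) (ht : 0 < t) : ℍ → ℂ := E2 ∣[(2 : ℤ)] tri t 0 1 ht one_pos

theorem cst2 (a d : ℕ) (hd : 0 < d) :
    ((a * d : ℂ) ^ ((2 : ℤ) - 1) * (d : ℂ) ^ (-(2 : ℤ))) = (a : ℂ) / d := by
  have h2 : (d : ℂ) ≠ 0 := by exact_mod_cast hd.ne'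
  rw [show (2 : ℤ) - 1 = ((1 : ℕ) : ℤ) by norm_num, show -(2 : ℤ) = -((2 : ℕ) : ℤ) by norm_num,
    zpow_natCast, _root_.zpow_neg, zpow_natCast]
  field_simp

theorem E2t_eq (hO : Good O) (t : ℕ) (ht : 0 < t) : ∃ Z : ℍ → ℂ, QI O 1 Z ∧
    E2t t ht = (t : ℂ) • Z := by
  obtain ⟨Z, hZ, e⟩ := tri_one_add (k := 2) hO E2_eq Y2_QI t 0 1 ht one_pos
  refine ⟨1 + (-24 : ℂ) • Z, QI.one.add (hZ.smul ?_), ?_⟩
  · exact_mod_cast O.neg_mem (natCast_mem O 24)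
  · rw [E2t, e, cst2 _ _ one_pos]
    norm_num

theorem D2_tri {t : ℕ} (ht : 0 < t) {a d : ℕ} {b : ℤ} (ha : 0 < a) (hd : 0 < d)
    (γ γ' : SL(2, ℤ)) (e : tri t 0 1 ht one_pos * (γ : GL (Fin 2) ℝ) =
      (γ' : GL (Fin 2) ℝ) * tri a b d ha hd) :
    (D2 γ') ∣[(2 : ℤ)] tri a b d ha hd = D2 γ := by
  have hac : (a : ℂ) ≠ 0 := by exact_mod_cast ha.ne'
  have hdc : (d : ℂ) ≠ 0 := by exact_mod_cast hd.ne'
  have e1 : ((γ 1 0 : ℤ) : ℝ) = ((γ' 1 0 : ℤ) : ℝ) * a := by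
    have := congrArg (fun g : GL (Fin 2) ℝ => (g : Matrix (Fin 2) (Fin 2) ℝ) 1 0) e
    simp only [Units.val_mul, tri_coe] at this
    simpa [Matrix.mul_apply, Fin.sum_univ_two] using this
  have e2 : ((γ 1 1 : ℤ) : ℝ) = ((γ' 1 0 : ℤ) : ℝ) * b + ((γ' 1 1 : ℤ) : ℝ) * d := by
    have := congrArg (fun g : GL (Fin 2) ℝ => (g : Matrix (Fin 2) (Fin 2) ℝ) 1 1) e
    simp only [Units.val_mul, tri_coe] at this
    simpa [Matrix.mul_apply, Fin.sum_univ_two] using this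
  have e1' : ((γ 1 0 : ℤ) : ℂ) = ((γ' 1 0 : ℤ) : ℂ) * a := by exact_mod_cast e1
  have e2' : ((γ 1 1 : ℤ) : ℂ) = ((γ' 1 0 : ℤ) : ℂ) * b + ((γ' 1 1 : ℤ) : ℂ) * d := by
    exact_mod_cast e2
  ext τ
  obtain ⟨τ', h1, h2⟩ := slash_tri 2 (D2 γ') a b d ha hd τ
  rw [h2, cst2 _ _ hd]
  have hde : denom (γ : GL (Fin 2) ℝ) τ = denom (γ' : GL (Fin 2) ℝ) τ' * d := by
    have : denom (γ : GL (Fin 2) ℝ) τ = ((γ 1 0 : ℤ) : ℂ) * τ + ((γ 1 1 : ℤ) : ℂ) := rfl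
    rw [this, e1', e2']
    have : denom (γ' : GL (Fin 2) ℝ) τ' = ((γ' 1 0 : ℤ) : ℂ) * τ' + ((γ' 1 1 : ℤ) : ℂ) := rfl
    rw [this, h1]
    field_simp
    ring
  have hne := denom_ne_zero (γ' : GL (Fin 2) ℝ) τ'
  simp only [D2]
  rw [hde, e1']
  field_simp

theorem E2t_slash {t : ℕ} (ht : 0 < t) {a d : ℕ} {b : ℤ} (ha : 0 < a) (hd : 0 < d)
    (γ γ' : SL(2, ℤ)) (e : tri t 0 1 ht one_pos * (γ : GL (Fin 2) ℝ) =
      (γ' : GL (Fin 2) ℝ) * tri a b d ha hd) :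
    (E2 - E2t t ht) ∣[(2 : ℤ)] γ = E2 - E2 ∣[(2 : ℤ)] tri a b d ha hd := by
  have h1 : E2t t ht ∣[(2 : ℤ)] γ =
      E2 ∣[(2 : ℤ)] tri a b d ha hd - (1 / (2 * riemannZeta 2)) • D2 γ := by
    rw [E2t, ModularForm.SL_slash, ← SlashAction.slash_mul, e, SlashAction.slash_mul,
      ← ModularForm.SL_slash, E2_slash_action, sub_eq_add_neg, SlashAction.add_slash,
      SlashAction.neg_slash, sub_eq_add_neg]
    congr 2
    rw [← D2_tri ht ha hd γ γ' e]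
    ext τ
    obtain ⟨τ', h1, h2⟩ := slash_tri 2 (D2 γ') a b d ha hd τ
    rw [slash_tri' 2 _ a b d ha hd τ τ' h1, Pi.smul_apply, Pi.smul_apply, h2]
    simp only [smul_eq_mul]
    ring
  rw [sub_eq_add_neg, SlashAction.add_slash, SlashAction.neg_slash, h1, E2_slash_action]
  ring

theorem E2t_cusps (hO : Good O) (t : ℕ) (ht : 0 < t) : Cusps O 2 (E2 - E2t t ht) := fun γ => by
  obtain ⟨γ', a, d, b, ha, hd, -, e⟩ := hermite' ht γ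
  rw [E2t_slash ht ha hd γ γ' e]
  have h1 : Bd O E2 := E2_QI.toBd one_pos
  exact h1.sub (h1.tri hO a b d ha hd)

theorem E2t_inv (t : ℕ) (ht : 0 < t) {γ : SL(2, ℤ)} (hγ : γ ∈ Gamma0 t) :
    (E2 - E2t t ht) ∣[(2 : ℤ)] γ = E2 - E2t t ht := by
  obtain ⟨γ', e⟩ := dil_slash ht hγ
  rw [E2t_slash ht ht one_pos γ γ' e]
  rfl

/-- the modified derivative -/
def Dm (k : ℤ) (t : ℕ) (ht : 0 < t) (f : ℍ → ℂ) : ℍ → ℂ :=
  serreDerivative k f + ((k : ℂ) * 12⁻¹) • ((E2 - E2t t ht) * f)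

theorem Dm_eq (k : ℤ) (t : ℕ) (ht : 0 < t) (f : ℍ → ℂ) :
    Dm k t ht f = normalizedDerivOfComplex f - ((k : ℂ) * 12⁻¹) • (E2t t ht * f) := by
  ext τ
  simp only [Dm, Pi.add_apply, serreDerivative_apply, Pi.smul_apply, Pi.mul_apply, Pi.sub_apply,
    smul_eq_mul]
  ring

theorem Dm_slash (k : ℤ) (t : ℕ) (ht : 0 < t) {f : ℍ → ℂ} (hf : MDiff f) (γ : SL(2, ℤ)) :
    Dm k t ht f ∣[k + 2] γ = serreDerivative k (f ∣[k] γ) +
      ((k : ℂ) * 12⁻¹) • (((E2 - E2t t ht) ∣[(2 : ℤ)] γ) * (f ∣[k] γ)) := by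
  rw [Dm, SlashAction.add_slash, serreDerivative_slash_equivariant hf, ModularForm.SL_smul_slash,
    add_comm k 2, ModularForm.mul_slash_SL2]

theorem serre_bd (hO : Good O) (k : ℤ) {f : ℍ → ℂ} (hf : Bd O f) :
    Bd O (serreDerivative k f) := by
  have e : serreDerivative k f = normalizedDerivOfComplex f - ((k : ℂ) * 12⁻¹) • (E2 * f) := by
    ext τ
    simp only [serreDerivative_apply, Pi.smul_apply, Pi.mul_apply, Pi.sub_apply, smul_eq_mul]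
    ring
  rw [e]
  exact (hf.deriv hO).sub (((E2_QI.toBd one_pos).mul hf).smul hO _)

theorem Dm_cusps (hO : Good O) {k : ℤ} (t : ℕ) (ht : 0 < t) {f : ℍ → ℂ} (hf : Cusps O k f) :
    Cusps O (k + 2) (Dm k t ht f) := fun γ => by
  rw [Dm_slash k t ht hf.toBd.mdiff]
  exact (serre_bd hO k (hf γ)).add (((E2t_cusps hO t ht γ).mul (hf γ)).smul hO _)

/-- one step of the theta operator -/
theorem theta_step (hO : Good O) {N J : ℕ} {k : ℤ} {χ : SL(2, ℤ) → ℂ} {f : ℍ → ℂ}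
    (hf : ∀ γ ∈ Gamma0 (N * 2 ^ J), f ∣[k] γ = χ γ • f) (hc : Cusps O k f) (m : ℕ) :
    ∃ (J' : ℕ) (F : ℍ → ℂ), J ≤ J' ∧ (∀ γ ∈ Gamma0 (N * 2 ^ J'), F ∣[k + 2] γ = χ γ • F) ∧
      Cusps O (k + 2) F ∧ Tn O m (F - normalizedDerivOfComplex f) := by
  obtain ⟨s, hs⟩ := hc.toBd.mul_tn
  obtain ⟨s', hs'⟩ := Tn.smul hO (-((k : ℂ) * 12⁻¹))
  set M := J + m + s + s' with hM
  have ht : 0 < 2 ^ M := by positivity
  have hle : Gamma0 (N * 2 ^ M) ≤ Gamma0 (N * 2 ^ J) := fun γ hγ => by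
    rw [Gamma0_mem, ZMod.intCast_zmod_eq_zero_iff_dvd] at hγ ⊢
    refine dvd_trans ?_ hγ
    push_cast
    exact mul_dvd_mul_left _ (pow_dvd_pow 2 (by omega))
  have hle' : Gamma0 (N * 2 ^ M) ≤ Gamma0 (2 ^ M) := fun γ hγ => by
    rw [Gamma0_mem, ZMod.intCast_zmod_eq_zero_iff_dvd] at hγ ⊢
    refine dvd_trans ?_ hγ
    push_cast
    exact dvd_mul_left _ _
  refine ⟨M, Dm k (2 ^ M) ht f, by omega, fun γ hγ => ?_, Dm_cusps hO _ ht hc, ?_⟩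
  · rw [Dm_slash k _ ht hc.toBd.mdiff, E2t_inv _ ht (hle' hγ), hf γ (hle hγ), serreDerivative_smul,
      mul_smul_comm, smul_comm, ← smul_add]
    · rfl
    · exact hc.toBd.mdiff
  · rw [Dm_eq]
    obtain ⟨Z, hZ, e⟩ := E2t_eq hO (2 ^ M) ht
    have e1 : normalizedDerivOfComplex f - ((k : ℂ) * 12⁻¹) • (E2t (2 ^ M) ht * f) -
        normalizedDerivOfComplex f = (-((k : ℂ) * 12⁻¹)) • (f * E2t (2 ^ M) ht) := by
      ext τ
      simp only [Pi.sub_apply, Pi.smul_apply, Pi.mul_apply, smul_eq_mul]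
      ring
    rw [e1]
    apply hs'
    apply hs
    refine ⟨1, one_pos, (2 : ℂ) ^ J • Z, hZ.smul (pow_mem (two_mem O) _), ?_⟩
    rw [e, smul_smul, ← pow_add]
    congr 1
    push_cast
    rw [hM]
    congr 1
    ring

end Vale.Agent.P022.H903
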