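import Vale.Agent.P022.H903.Level
import Mathlib.RingTheory.RootsOfUnity.Complex

/-!
# Uniqueness of expansions, reduction to period one
-/

open scoped ModularForm MatrixGroups Manifold Topology
open UpperHalfPlane Filter Matrix CongruenceSubgroup

noncomputable section

namespace Vale.Agent.P022.H903

variable {O : Subring ℂ} {h : ℕ}

theorem periodic_of_hasSum (hh : 0 < h) {F : ℍ → ℂ} {a : ℕ → ℂ}
    (ha : ∀ τ : ℍ, HasSum (fun n => a n * Function.Periodic.qParam (h : ℝ) τ ^ n) (F τ)) :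
    Function.Periodic (F ∘ ofComplex) ((h : ℝ) : ℂ) := by
  intro w
  by_cases hw : 0 < w.im
  · have hw' : 0 < (w + ((h : ℝ) : ℂ)).im := by simpa using hw
    rw [QI.eqOn ha hw', QI.eqOn ha hw]
    refine tsum_congr fun n => ?_
    have e : Function.Periodic.qParam (h : ℝ) (w + ((h : ℝ) : ℂ)) =
        Function.Periodic.qParam (h : ℝ) w := by
      have hhc : (h : ℂ) ≠ 0 := by exact_mod_cast hh.ne'
      rw [Function.Periodic.qParam, Function.Periodic.qParam,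
        Complex.exp_eq_exp_iff_exists_int]
      refine ⟨1, ?_⟩
      push_cast
      field_simp
    rw [e]
  · have hw1 : w.im ≤ 0 := not_lt.1 hw
    have hw' : (w + ((h : ℝ) : ℂ)).im ≤ 0 := by simpa using hw1
    simp only [Function.comp_apply]
    rw [ofComplex_apply_of_im_nonpos hw', ofComplex_apply_of_im_nonpos hw1]

theorem hasSum_unique (hh : 0 < h) {F : ℍ → ℂ} {a b : ℕ → ℂ}
    (ha : ∀ τ : ℍ, HasSum (fun n => a n * Function.Periodic.qParam (h : ℝ) τ ^ n) (F τ))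
    (hb : ∀ τ : ℍ, HasSum (fun n => b n * Function.Periodic.qParam (h : ℝ) τ ^ n) (F τ)) :
    a = b := by
  have hQ : QI ⊤ h F := ⟨a, fun _ => Subring.mem_top _, ha⟩
  have hhr : (0 : ℝ) < h := by exact_mod_cast hh
  have han := analyticAt_cuspFunction_zero hhr (periodic_of_hasSum hh ha) (hQ.mdiff hh)
    (hQ.bdd hh)
  have h1 := (hasFPowerSeriesOnBall_cuspFunction hhr han ha).hasFPowerSeriesAt
  have h2 := (hasFPowerSeriesOnBall_cuspFunction hhr han hb).hasFPowerSeriesAt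
  have h3 := h1.eq_formalMultilinearSeries h2
  ext n
  simpa using congr_arg (FormalMultilinearSeries.coeff · n) h3

theorem QI.period_one {F : ℍ → ℂ} (hh : 0 < h) (hF : QI O h F)
    (hT : ∀ τ τ' : ℍ, (τ' : ℂ) = τ + 1 → F τ' = F τ) : QI O 1 F := by
  obtain ⟨a, ha, hs⟩ := hF
  have hhc : (h : ℂ) ≠ 0 := by exact_mod_cast hh.ne'
  set ζ : ℂ := Complex.exp (2 * Real.pi * Complex.I / h) with hζ
  have hprim : IsPrimitiveRoot ζ h := Complex.isPrimitiveRoot_exp h hh.ne'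
  have h1 : ∀ τ : ℍ, HasSum (fun n => (a n * ζ ^ n) * Function.Periodic.qParam (h : ℝ) τ ^ n)
      (F τ) := by
    intro τ
    set τ' : ℍ := ⟨(τ : ℂ) + 1, by simpa using τ.im_pos⟩ with hτ'
    rw [← hT τ τ' rfl]
    refine hs_congr (hs τ') fun n => ?_
    rw [Function.Periodic.qParam, Function.Periodic.qParam, mul_assoc, ← mul_pow, hζ,
      ← Complex.exp_add]
    congr 3
    have : ((τ' : ℍ) : ℂ) = (τ : ℂ) + 1 := rfl
    rw [this]
    push_cast
    ring
  have h2 := hasSum_unique hh h1 hs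
  have h3 : ∀ n, ¬ h ∣ n → a n = 0 := by
    intro n hn
    have h4 := congrFun h2 n
    have h5 : ζ ^ n ≠ 1 := fun h6 => hn ((hprim.pow_eq_one_iff_dvd n).1 h6)
    have h6 : a n * (ζ ^ n - 1) = 0 := by
      rw [mul_sub, mul_one]
      simpa [sub_eq_zero] using h4
    rcases mul_eq_zero.1 h6 with h7 | h7
    · exact h7
    · exact absurd (sub_eq_zero.1 h7) h5
  have inj : Function.Injective (fun n : ℕ => h * n) := fun a b h' =>
    Nat.eq_of_mul_eq_mul_left hh h'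
  refine ⟨fun n => a (h * n), fun n => ha _, fun τ => ?_⟩
  have h4 := (inj.hasSum_iff (f := fun n => a n * Function.Periodic.qParam (h : ℝ) τ ^ n) (by
    intro x hx
    rw [h3 x (by rintro ⟨y, rfl⟩; exact hx ⟨y, rfl⟩), zero_mul])).2 (hs τ)
  refine hs_congr h4 fun n => ?_
  simp only [Function.comp_apply]
  rw [Function.Periodic.qParam, Function.Periodic.qParam, ← Complex.exp_nat_mul,
    ← Complex.exp_nat_mul]
  congr 2
  push_cast
  field_simp

/-- small with period one -/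
def T1 (O : Subring ℂ) (m : ℕ) (F : ℍ → ℂ) : Prop :=
  ∃ Z : ℍ → ℂ, QI O 1 Z ∧ F = (2 : ℂ) ^ m • Z

theorem Tn.toT1 {m : ℕ} {F : ℍ → ℂ} (hF : Tn O m F)
    (hT : ∀ τ τ' : ℍ, (τ' : ℂ) = τ + 1 → F τ' = F τ) : T1 O m F := by
  obtain ⟨h, hh, Z, hZ, e⟩ := hF
  refine ⟨Z, hZ.period_one hh fun τ τ' e' => ?_, e⟩
  have := hT τ τ' e'
  rw [e] at this
  simpa using this

theorem T1.toTn {m : ℕ} {F : ℍ → ℂ} (hF : T1 O m F) : Tn O m F := by
  obtain ⟨Z, hZ, e⟩ := hF
  exact ⟨1, one_pos, Z, hZ, e⟩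

theorem T1.mono {m n : ℕ} (hmn : m ≤ n) {F : ℍ → ℂ} (hF : T1 O n F) : T1 O m F := by
  obtain ⟨Z, hZ, e⟩ := hF
  refine ⟨(2 : ℂ) ^ (n - m) • Z, hZ.smul (pow_mem (two_mem O) _), ?_⟩
  rw [smul_smul, ← pow_add, Nat.add_sub_cancel' hmn]
  exact e

theorem T1.add {m : ℕ} {F G : ℍ → ℂ} (hF : T1 O m F) (hG : T1 O m G) : T1 O m (F + G) := by
  obtain ⟨Z, hZ, e⟩ := hF
  obtain ⟨Z', hZ', e'⟩ := hG
  exact ⟨Z + Z', hZ.add hZ', by rw [smul_add, ← e, ← e']⟩

theorem T1.smul {m : ℕ} {c : ℂ} (hc : c ∈ O) {F : ℍ → ℂ} (hF : T1 O m F) : T1 O m (c • F) := by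
  obtain ⟨Z, hZ, e⟩ := hF
  exact ⟨c • Z, hZ.smul hc, by rw [e, smul_comm]⟩

theorem T1.deriv {m : ℕ} {F : ℍ → ℂ} (hF : T1 O m F) :
    T1 O m (Derivative.normalizedDerivOfComplex F) := by
  obtain ⟨Z, hZ, e⟩ := hF
  refine ⟨Derivative.normalizedDerivOfComplex Z, ?_, ?_⟩
  · have := hZ.deriv one_pos
    simpa using this
  · rw [e, Derivative.normalizedDerivOfComplex_smul _ _ (hZ.mdiff one_pos)]

end Vale.Agent.P022.H903
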